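import Vale.Agent.P042.H743.LawN
import Vale.Agent.P042.H635.F1Fin
import Vale.Agent.P042.H599.CellD

/-!
# P042, power regime: the numbers of the law slots at one instance of the state

`lawNum_I`: the `LawNum` part of helper635's `NumAt`, at helper860's `At`.
-/

set_option autoImplicit false
set_option linter.unusedSectionVars false

namespace Vale.Agent.P042.H743

open Finset
open Vale.Agent.P042.H362 (FP WF FPOk)
open Vale.Agent.P042.H168 (LawNum)
open Vale.Agent.P042.H860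
open Vale.Agent.P042.H635 (qL scL M0I Lo)
open Vale.Agent.P042.H739 (Q0s)

theorem qL_mem {I : Inst} {kap : ℝ} {q : FP} {k R : ℕ} {P : ℝ} (hK : I.K0 = max (max q.K0 R) (2 * k))
    (hC : I.C1 = q.C1) (hP : I.P = P) (i : Lo I kap) : qL I kap i ∈ WF q k R P := by
  rw [WF_eq q k R I.K0 P hK, ← hC, ← hP]
  exact i.1.2

theorem qL_inj (I : Inst) (kap : ℝ) : Function.Injective (qL I kap) :=
  fun _ _ h => Subtype.ext (Subtype.ext h)

theorem qL_pow (I : Inst) (kap : ℝ) (i : Lo I kap) : qL I kap i ≤ 2 ^ scL I kap i :=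
  Nat.le_pow_clog (by norm_num) _

/-- **the numbers of the law slots at one instance**, `Λ = 24 θ P`, `Θ = P / (64 k)` -/
theorem lawNum_I {k : ℕ} {z : Loc} {γ : ℝ} (hk : 2 ≤ k) (hz : LocOk z) (hγ : z.kap / 50 ≤ γ) :
    ∃ Kt : ℕ, ∀ {thr : ℝ → ℕ} {thb : ℝ → ℕ → ℝ} {C1 : ℕ → ℝ} {cs : ℕ → ℕ → H387.Cst}
      {par : ℕ → ℕ → ℝ → FP} {R : ℕ}, (∀ κ, Kt ≤ thr κ) → FitAt z thr thb C1 cs par k R →
    ∀ θ : ℝ, 0 < θ → θ ≤ 1 / (800000 * z.C1) → θ ≤ 1 / (2000 * k) →
    ∀ κ : ℝ, 0 < κ → κ ≤ 1 / 2 →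
    ∃ P0 : ℝ, ∀ P : ℝ, P0 ≤ P → ∀ I : Inst, At C1 cs par k R κ P I →
    ∀ ns : ℕ, (∀ i, scL I z.kap i < ns) →
      LawNum (par k R κ) (WF (par k R κ) k R P) I.N I.h0 I.q0 ((par k R κ).kp * P / 64)
        (P / (16 * k)) P (qL I z.kap) (scL I z.kap) ns γ 3 (24 * θ * P)
        ((par k R κ).g / (5200 * (par k R κ).C1) * P)
        (Real.exp (-(((par k R κ).C1 + 3) * Real.log P)))
        (M0I I θ * Real.exp (P / (64 * k) / 2)) := by
  have hkap : 0 < z.kap := by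
    rw [hz.kap]
    have := hz.g0
    positivity
  have hα := hz.α0
  have hC4 := hz.C1
  have hγ0 : 0 < γ := lt_of_lt_of_le (by positivity) hγ
  have hαk : z.α ≤ z.kap / 2000 := by
    rw [hz.αγ]
    exact (div_le_self hz.γ0.le (by linarith)).trans hz.γkap
  obtain ⟨Kt, hKt⟩ := lawK_exists (g := z.α / 16) (γ := γ) (by positivity) hγ0
  refine ⟨Kt, ?_⟩
  intro thr thb C1 cs par R hthr hF θ θ0 θ1 θ2 κ κ0 κ1
  have hf := hF.fit κ κ0
  have hqg : (par k R κ).g = z.α / 16 := by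
    rw [hf.g, hF.ecs]
    rfl
  have hqC : (par k R κ).C1 = z.C1 := by rw [hf.eC1, hF.eC1]
  have hqb : (par k R κ).be ≤ z.α / 32 := by
    have h1 := hf.ok.beb
    rw [hf.b, hF.ecs] at h1
    have h2 : z.α / 16 / 2 = z.α / 32 := by ring
    exact h1.trans (le_of_eq h2)
  obtain ⟨hK1, hK2⟩ := hKt (par k R κ).K0 ((hthr κ).trans hf.K0)
  rw [← hqg] at hK1
  have hθL : 24 * θ ≤ 1 / (32000 * (par k R κ).C1) := by
    rw [hqC]
    have h1 : 24 * θ ≤ 24 * (1 / (800000 * z.C1)) := by linarith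
    refine h1.trans ?_
    rw [mul_one_div, div_le_div_iff₀ (by positivity) (by positivity)]
    nlinarith
  obtain ⟨P0, hP0⟩ := lawNum_F (A0 := 3) hf.ok hk le_rfl (by rw [hqg]; linarith)
    (by linarith) hK1 hK2 (by positivity : 0 < 24 * θ) hθL
  have hkr : (2 : ℝ) ≤ k := by exact_mod_cast hk
  obtain ⟨B, hB⟩ : ∃ B : ℝ, B = Real.log (max 1 (Q0s k R (H387.K0fun par k R κ) : ℝ)) :=
    ⟨_, rfl⟩
  have hB0 : 0 ≤ B := by rw [hB]; exact Real.log_nonneg (le_max_left _ _)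
  refine ⟨max P0 (1000 * k * B), ?_⟩
  intro P hP I hI ns hns
  have hPa : P0 ≤ P := (le_max_left _ _).trans hP
  have hPb : 1000 * k * B ≤ P := (le_max_right _ _).trans hP
  have hP00 : 0 ≤ P := le_trans (by positivity) hPb
  have hIK : I.K0 = max (max (par k R κ).K0 R) (2 * k) := by
    rw [hI.hK0]
    rfl
  have hlo := hI.ok.base.lo
  rw [hI.hP] at hlo
  have hN0 : (0 : ℝ) < I.N := lt_of_lt_of_le (Real.exp_pos _) hlo
  refine hP0 P hPa R (qL I z.kap) (scL I z.kap) ns I.N I.h0 I.q0 _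
    (qL_mem hIK (by rw [hI.hC1, hf.eC1]) hI.hP) (qL_inj I z.kap) (qL_pow I z.kap) hns
    (by exact_mod_cast hN0) ?_ hI.ok.hN ?_
  · rw [Real.le_log_iff_exp_le hN0]
    refine (Real.exp_le_exp.2 ?_).trans hlo
    have h1 : κ * P ≤ 1 / 2 * P := mul_le_mul_of_nonneg_right κ1 hP00
    linarith
  · have h1 : (I.q0 : ℝ) ≤ Real.exp B := by
      rw [hB, Real.exp_log (lt_of_lt_of_le one_pos (le_max_left _ _))]
      have h2 : I.q0 ≤ Q0s I.k I.R I.K0 := H599.ok_q0_le hI.ok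
      rw [hI.hk, hI.hR, hI.hK0] at h2
      exact (by exact_mod_cast h2 : (I.q0 : ℝ) ≤ _).trans (le_max_right _ _)
    have h2 : (M0I I θ : ℝ) ≤ Real.exp (θ * P) := by
      unfold H635.M0I
      rw [hI.hP]
      exact Nat.floor_le (Real.exp_pos _).le
    have h3 : (I.q0 : ℝ) * (M0I I θ * Real.exp (P / (64 * k) / 2)) ≤
        Real.exp B * (Real.exp (θ * P) * Real.exp (P / (64 * k) / 2)) :=
      mul_le_mul h1 (mul_le_mul_of_nonneg_right h2 (Real.exp_pos _).le) (by positivity)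
        (Real.exp_pos _).le
    refine h3.trans ?_
    rw [← Real.exp_add, ← Real.exp_add, Real.exp_le_exp]
    obtain ⟨t, ht⟩ : ∃ t : ℝ, t = P / k := ⟨_, rfl⟩
    have e1 : P / (64 * k) = t / 64 := by rw [ht]; field_simp
    have e2 : P / (16 * k) = t / 16 := by rw [ht]; field_simp
    have e3 : 1000 * B ≤ t := by
      rw [ht, le_div_iff₀ (by linarith)]
      linarith
    have e4 : θ * P ≤ t / 2000 := by
      have := mul_le_mul_of_nonneg_right θ2 hP00
      refine this.trans (le_of_eq ?_)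
      rw [ht]
      field_simp
    rw [e1, e2]
    linarith

end Vale.Agent.P042.H743
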