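import Vale.Agent.P042.H743.PinF
import Vale.Agent.P042.H362.StF

/-!
# P042, power regime: the pins inequality from the state

`qlc_St`: helper362's state gives `QLc` at every long window, for all cells of density at least
`exp (-Ds)`, `Ds ≤ g P / (5200 C1)`; `pinNum_of`: the numbers of the sites.
-/

set_option autoImplicit false
set_option linter.unusedSectionVars false

namespace Vale.Agent.P042.H743

open Polynomial Finset
open Vale.Agent.P042.H599 (cm Law)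
open Vale.Agent.P042.H945 (SM kl2 klc ms cl)
open Vale.Agent.P042.H362 (FP WF costF AtF QL FPOk StF1)

theorem costF_eq (W : Finset ℕ) (q : FP) (D M : ℕ) (V : ℝ) :
    costF W q D M V = cstF W q.be q.ga (q.be * (Real.log M - Real.log V + 1)) D := by
  unfold costF cstF
  ring

theorem WF_prime {q : FP} {k R : ℕ} {P : ℝ} {p : ℕ} (hp : p ∈ WF q k R P) :
    p.Prime ∧ max (max q.K0 R) (2 * k) < p ∧ (p : ℝ) ≤ P ^ q.C1 := by
  unfold WF at hp
  obtain ⟨h1, h2, h3⟩ := Finset.mem_filter.1 hp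
  refine ⟨h2, h3, ?_⟩
  have h4 : p ≤ ⌊P ^ q.C1⌋₊ := Nat.lt_succ_iff.1 (Finset.mem_range.1 h1)
  exact (Nat.le_floor_iff' h2.ne_zero).1 h4

/-- the thick cells, at one value of `P` -/
theorem qlc_of_QL {W : Finset ℕ} {q : FP} {f : ℤ[X]} {M : ℕ} {mu : ℕ → ℝ} {Dm Lq : ℝ}
    (s : AtF W q f M mu Dm) (hq : QL W q M mu Dm Lq) (hW : ∀ p ∈ W, p.Prime) {u v : ℕ}
    (hu : 1 ≤ u) (hv : v ≤ M) (hM : (M : ℝ) ≤ Real.exp Dm * ((v + 1 - u : ℕ) : ℝ))
    (hDm : 0 ≤ Dm) :
    QLc mu M W (fun p => (p : ℝ) ^ (-q.g))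
      (cstF W q.be q.ga (q.be * (Real.log M - Real.log ((v + 1 - u : ℕ) : ℝ) + 1)))
      (Real.exp Lq) Dm ((v + 1 - u : ℕ) : ℝ) u v := by
  intro D w hD hDM hw hm hth
  have h0 := rst_nonneg s.nn hm
  have hDR : (0 : ℝ) < D := by exact_mod_cast hD
  have h1 := hq D w u v (H945.rst mu M (cl D w u v)) hD
    ((Real.log_le_iff_le_exp hDR).2 hDM) hu hv hM hm hth (H945.rst_law s.law hm) h0
    (fun n => le_mul_of_one_le_left (h0 n) (Real.one_le_exp hDm))
  rw [kl2_self, zero_add, costF_eq] at h1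
  have h3 : W.filter (fun p => ¬ p ∣ D) = W.filter fun p => Nat.Coprime p D :=
    Finset.filter_congr fun p hp => ((hW p hp).coprime_iff_not_dvd).symm
  rw [h3]
  exact h1

theorem ev_pow {g κ : ℝ} (hg : 0 < g) (hκ : 0 < κ) :
    ∀ᶠ l : ℝ in Filter.atTop, 2 * Real.exp ((1 - g / 10) * l) ≤ κ * Real.exp l := by
  have h1 : Filter.Tendsto (fun l : ℝ => Real.exp (g / 10 * l)) Filter.atTop Filter.atTop :=
    Real.tendsto_exp_atTop.comp (Filter.tendsto_id.const_mul_atTop (by positivity))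
  filter_upwards [h1.eventually (Filter.eventually_ge_atTop (2 / κ))] with l hl
  rw [div_le_iff₀ hκ] at hl
  have h2 : Real.exp l = Real.exp ((1 - g / 10) * l) * Real.exp (g / 10 * l) := by
    rw [← Real.exp_add]; congr 1; ring
  rw [h2]
  have h3 := Real.exp_pos ((1 - g / 10) * l)
  nlinarith

/-- **the pins inequality for all cells of the state, at every long window** -/
theorem qlc_St {q : FP} {k : ℕ} {κ : ℝ} (ok : FPOk q k κ) (hk : 2 ≤ k) :
    ∃ P0 : ℝ, ∀ P : ℝ, P0 ≤ P → ∀ (R : ℕ) (f : ℤ[X]) (M : ℕ) (mu : ℕ → ℝ),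
      AtF (WF q k R P) q f M mu (q.kp * P / 64) →
      QL (WF q k R P) q M mu (q.kp * P / 64) (P / (16 * k)) → P / 2 ≤ Real.log M →
      ∀ u v : ℕ, 1 ≤ u → v ≤ M → (M : ℝ) ≤ 1000 * ((v + 1 - u : ℕ) : ℝ) →
      ∀ Ds : ℝ, 0 ≤ Ds → Ds ≤ q.g / (5200 * q.C1) * P →
      QLc mu M (WF q k R P) (fun p => (p : ℝ) ^ (-q.g))
        (cstF (WF q k R P) q.be q.ga
          (q.be * (Real.log M - Real.log ((v + 1 - u : ℕ) : ℝ) + 1)))
        (Real.exp (P / (16 * k))) Ds ((v + 1 - u : ℕ) : ℝ) u v := by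
  have hg := ok.g0
  have hC := ok.C11
  have hC0 : 0 < q.C1 := by linarith
  have hkp := ok.kp0
  obtain ⟨l0, hl0⟩ := qlc_thin hg ok.g1 hC
  have hx : 0 < q.g / q.C1 := div_pos hg hC0
  obtain ⟨l1, hl1⟩ := Filter.eventually_atTop.1 (ev_pow (g := q.g) (κ := q.kp / 64) hg
    (by positivity))
  refine ⟨max (max (Real.exp l0) (Real.exp l1))
    (max (max (8 * 10 ^ 5 / (q.g / q.C1)) (500 / q.kp)) 60), ?_⟩
  intro P hP R f M mu s hq hM u v hu hv hMV Ds hDs0 hDs
  have p0 : Real.exp l0 ≤ P := ((le_max_left _ _).trans (le_max_left _ _)).trans hP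
  have p1 : Real.exp l1 ≤ P := ((le_max_right _ _).trans (le_max_left _ _)).trans hP
  have p2 : 8 * 10 ^ 5 / (q.g / q.C1) ≤ P :=
    (((le_max_left _ _).trans (le_max_left _ _)).trans (le_max_right _ _)).trans hP
  have p3 : 500 / q.kp ≤ P :=
    (((le_max_right _ _).trans (le_max_left _ _)).trans (le_max_right _ _)).trans hP
  have p4 : 60 ≤ P := ((le_max_right _ _).trans (le_max_right _ _)).trans hP
  rw [div_le_iff₀ hx] at p2
  rw [div_le_iff₀ hkp] at p3
  have hP0 : 0 < P := by linarith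
  obtain ⟨l, rfl⟩ : ∃ l, P = Real.exp l := ⟨Real.log P, (Real.exp_log hP0).symm⟩
  have hDm : 0 ≤ q.kp * Real.exp l / 64 := by positivity
  have hV1 : (0 : ℝ) < ((v + 1 - u : ℕ) : ℝ) := by
    have h1 : (0 : ℝ) < M := by exact_mod_cast s.law.pos
    nlinarith
  have hM0 : (0 : ℝ) < M := by exact_mod_cast s.law.pos
  have hW : ∀ p ∈ WF q k R (Real.exp l), p.Prime := fun p hp => (WF_prime hp).1
  have hMe : (M : ℝ) ≤ Real.exp (q.kp * Real.exp l / 64) * ((v + 1 - u : ℕ) : ℝ) := by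
    refine hMV.trans (mul_le_mul_of_nonneg_right ?_ hV1.le)
    have h1 : (7 : ℝ) ≤ q.kp * Real.exp l / 64 := by linarith
    have h2 : (1000 : ℝ) ≤ Real.exp 7 := by
      have h3 : (2.7182818283 : ℝ) ^ 7 ≤ Real.exp 1 ^ 7 :=
        pow_le_pow_left₀ (by norm_num) Real.exp_one_gt_d9.le 7
      rw [← Real.exp_nat_mul] at h3
      norm_num at h3 ⊢
      linarith
    exact h2.trans (Real.exp_le_exp.2 h1)
  have h1 := qlc_of_QL s hq hW hu hv hMe hDm
  have hkR : (2 : ℝ) ≤ k := by exact_mod_cast hk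
  have hMexp : Real.exp (Real.exp l / 2) ≤ M := by
    rw [← Real.le_log_iff_exp_le hM0]; exact hM
  have hlogV : 0 ≤ Real.log M - Real.log ((v + 1 - u : ℕ) : ℝ) := by
    have h2 : ((v + 1 - u : ℕ) : ℝ) ≤ M := by
      have : v + 1 - u ≤ M := by omega
      exact_mod_cast this
    linarith [Real.log_le_log hV1 h2]
  refine hl0 l (show l0 ≤ l by rw [← Real.exp_le_exp]; exact p0) mu M s.law s.nn _ hW
    (fun p hp => ?_) s.atom _ (Real.exp (Real.exp l / (16 * k))) (q.kp * Real.exp l / 64) Ds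
    (32 * (q.kp * Real.exp l / 64) + Real.log 2) u v hu ?_ hDs0 (fun n => ?_) ?_ ?_ ?_ ?_
    (fun D hD _ => ?_) h1
  · have h2 := (WF_prime hp).2.2
    rwa [← Real.exp_mul, mul_comm l] at h2
  · have : 0 ≤ Real.log 2 := Real.log_nonneg (by norm_num)
    linarith
  · rw [Real.exp_add, Real.exp_log (by norm_num), le_div_iff₀ hM0]
    have := s.cap n
    linarith
  · have h2 : Real.log 2 ≤ 1 := by linarith [Real.log_two_lt_d9]
    have h3 : q.kp ≤ q.g / q.C1 / 2560 := by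
      have := ok.kpg
      rwa [div_div, mul_comm q.C1]
    have h4 : q.g / (5200 * q.C1) = q.g / q.C1 / 5200 := by
      rw [div_div, mul_comm q.C1]
    have h5 : q.g / (2560 * q.C1) = q.g / q.C1 / 2560 := by
      rw [div_div, mul_comm q.C1]
    rw [h4] at hDs
    rw [h5]
    have h6 : q.kp * Real.exp l ≤ q.g / q.C1 / 2560 * Real.exp l :=
      mul_le_mul_of_nonneg_right h3 hP0.le
    nlinarith
  · refine le_trans (Real.exp_le_exp.2 ?_) hMexp
    linarith
  · have h2 : Real.exp l / (16 * k) ≤ Real.exp l / 32 :=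
      div_le_div_of_nonneg_left hP0.le (by norm_num) (by linarith)
    have h3 : Real.exp (Real.exp l / (16 * k)) * (2 * Real.exp (Real.exp l / 4)) ≤
        2 * Real.exp (Real.exp l / 32 + Real.exp l / 4) := by
      rw [Real.exp_add]
      have h4 := Real.exp_le_exp.2 h2
      have h5 := Real.exp_pos (Real.exp l / 4)
      nlinarith
    refine h3.trans ?_
    have h6 : 2000 * Real.exp (Real.exp l / 32 + Real.exp l / 4) ≤
        Real.exp (Real.exp l / 2) := by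
      have h7 : (2000 : ℝ) ≤ Real.exp 8 := by
        have h3 : (2.7182818283 : ℝ) ^ 8 ≤ Real.exp 1 ^ 8 :=
          pow_le_pow_left₀ (by norm_num) Real.exp_one_gt_d9.le 8
        rw [← Real.exp_nat_mul] at h3
        norm_num at h3 ⊢
        linarith
      calc 2000 * Real.exp (Real.exp l / 32 + Real.exp l / 4)
          ≤ Real.exp 8 * Real.exp (Real.exp l / 32 + Real.exp l / 4) :=
            mul_le_mul_of_nonneg_right h7 (Real.exp_pos _).le
        _ = Real.exp (8 + (Real.exp l / 32 + Real.exp l / 4)) := by rw [← Real.exp_add]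
        _ ≤ _ := Real.exp_le_exp.2 (by linarith)
    nlinarith
  · have h2 := hl1 l (by rw [← Real.exp_le_exp]; exact p1)
    linarith
  · exact cstF_nonneg ok.be0.le (mul_nonneg ok.be0.le (by linarith)) hD

/-- **the numbers of the sites** -/
theorem pinNum_of {ι : Type*} [Fintype ι] [DecidableEq ι] {γ A0 g be ga a : ℝ} (hA : 3 ≤ A0)
    (hg : 0 < g) (hg1 : g ≤ 1) (hbe : 0 ≤ be) (hga : 0 ≤ ga) (ha : 0 ≤ a) (hγ : 0 ≤ γ)
    (h2 : (2 * g + be) * Real.log 2 ≤ γ / 2) {K0 : ℕ} (hK : 1 ≤ K0)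
    (hK1 : Real.log 4 ≤ g * Real.log K0) (hK2 : 2 * (a + 2) ≤ γ * (Real.log K0 / Real.log 2))
    {W : Finset ℕ} (hW : ∀ p ∈ W, p.Prime ∧ K0 ≤ p) {q : ι → ℕ} (qW : ∀ i, q i ∈ W)
    (inj : Function.Injective q) {sc : ι → ℕ} {ns : ℕ} (sc1 : ∀ i, q i ≤ 2 ^ sc i)
    (scn : ∀ i, sc i < ns) {Λ : ℝ} (Λ0 : 0 < Λ) (ℓΛ : ∀ i, 4 * Real.log (q i) ≤ Λ) :
    PinNum γ A0 g be ga W q sc ns Λ a where
  hW := fun p hp => (hW p hp).1
  qW := qW
  inj := inj
  sc1 := sc1
  scn := scn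
  A0' := hA
  g0 := hg.le
  g1 := hg1
  be0 := hbe
  ga0 := hga
  a0 := ha
  K4 := fun i => by
    have hK0 : (0 : ℝ) < K0 := by exact_mod_cast hK
    have h3 : (K0 : ℝ) ≤ q i := by exact_mod_cast (hW _ (qW i)).2
    exact hK1.trans (mul_le_mul_of_nonneg_left (Real.log_le_log hK0 h3) hg.le)
  hγ := fun i => by
    have hl2 : 0 < Real.log 2 := Real.log_pos (by norm_num)
    have hK0 : (0 : ℝ) < K0 := by exact_mod_cast hK
    have h3 : (K0 : ℝ) ≤ 2 ^ sc i := by exact_mod_cast (hW _ (qW i)).2.trans (sc1 i)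
    have h4 := Real.log_le_log hK0 h3
    rw [Real.log_pow] at h4
    have h5 : Real.log K0 / Real.log 2 ≤ sc i := by
      rw [div_le_iff₀ hl2]; exact h4
    have h6 : γ * (Real.log K0 / Real.log 2) ≤ γ * sc i := mul_le_mul_of_nonneg_left h5 hγ
    have h7 : (0 : ℝ) ≤ sc i := Nat.cast_nonneg _
    nlinarith
  Λ0 := Λ0
  ℓΛ := ℓΛ

end Vale.Agent.P042.H743
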