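import Vale.Agent.P042.H168.F1Law
import Vale.Agent.P042.H743.PinS

/-!
# P042, power regime: the numbers of the law slots of the state

`lawNum_F`: all fields of helper168's `LawNum` from the parameters of the state, in the order
exponents → threshold of `K0` → `θ` → `P0`; `lawK_exists`: the threshold.
-/

set_option autoImplicit false
set_option linter.unusedSectionVars false

namespace Vale.Agent.P042.H743

open Finset
open Vale.Agent.P042.H362 (FP WF FPOk)
open Vale.Agent.P042.H168 (LawNum)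

/-- linear functions are smaller than the exponential -/
theorem ev_lin {c : ℝ} (hc : 0 < c) (a b : ℝ) :
    ∃ l0 : ℝ, 1 ≤ l0 ∧ ∀ l : ℝ, l0 ≤ l → a * l + b ≤ c * Real.exp l := by
  refine ⟨max 1 (2 * (|a| + |b|) / c), le_max_left _ _, ?_⟩
  intro l hl
  have h1 : 1 ≤ l := (le_max_left _ _).trans hl
  have h2 : 2 * (|a| + |b|) / c ≤ l := (le_max_right _ _).trans hl
  rw [div_le_iff₀ hc] at h2
  have h3 := Real.quadratic_le_exp_of_nonneg (by linarith : 0 ≤ l)
  have h4 : a * l ≤ |a| * l := mul_le_mul_of_nonneg_right (le_abs_self a) (by linarith)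
  have h5 : b ≤ |b| * l := (le_abs_self b).trans (by
    have := mul_le_mul_of_nonneg_left h1 (abs_nonneg b)
    linarith)
  have h6 : c * (l ^ 2 / 2) ≤ c * Real.exp l := mul_le_mul_of_nonneg_left (by linarith) hc.le
  have h7 : (2 * (|a| + |b|)) * l ≤ (l * c) * l := mul_le_mul_of_nonneg_right h2 (by linarith)
  nlinarith

/-- the threshold of `K0` for the pins -/
theorem lawK_exists {g γ : ℝ} (hg : 0 < g) (hγ : 0 < γ) :
    ∃ Kt : ℕ, ∀ K0 : ℕ, Kt ≤ K0 →
      Real.log 4 ≤ g * Real.log K0 ∧ 4 * Real.log 2 ≤ γ * Real.log K0 := by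
  refine ⟨⌈Real.exp (max (Real.log 4 / g) (4 * Real.log 2 / γ))⌉₊, ?_⟩
  intro K0 hK
  have h1 : Real.exp (max (Real.log 4 / g) (4 * Real.log 2 / γ)) ≤ K0 :=
    (Nat.le_ceil _).trans (by exact_mod_cast hK)
  have hK0 : (0 : ℝ) < K0 := lt_of_lt_of_le (Real.exp_pos _) h1
  have h2 : max (Real.log 4 / g) (4 * Real.log 2 / γ) ≤ Real.log K0 :=
    (Real.le_log_iff_exp_le hK0).2 h1
  have h3 := (le_max_left _ _).trans h2
  have h4 := (le_max_right _ _).trans h2
  rw [div_le_iff₀ hg] at h3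
  rw [div_le_iff₀ hγ] at h4
  exact ⟨by linarith, by linarith⟩

/-- the sum of the costs of the atoms -/
theorem sum_atoms {ι : Type*} [Fintype ι] {g x : ℝ} (hg : 0 ≤ g) (hg1 : g ≤ 1) (hx0 : 0 ≤ x)
    {qs : ι → ℕ} (inj : Function.Injective qs) (h2 : ∀ i, 2 ≤ qs i)
    (hx : ∀ i, (qs i : ℝ) ≤ Real.exp x) :
    ∑ j, (qs j : ℝ) ^ (-g) * (1 + Lq g qs j) ≤ Real.exp x * (2 * x + 3) := by
  classical
  have hl4 : Real.log 4 ≤ 2 := by
    rw [log4]
    linarith [Real.log_two_lt_d9]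
  have h1 : ∀ j, (qs j : ℝ) ^ (-g) * (1 + Lq g qs j) ≤ 2 * x + 3 := by
    intro j
    have h3 : (2 : ℝ) ≤ qs j := by exact_mod_cast h2 j
    have h4 : (qs j : ℝ) ^ (-g) ≤ 1 :=
      Real.rpow_le_one_of_one_le_of_nonpos (by linarith) (by linarith)
    have h5 : Real.log (qs j) ≤ x := (Real.log_le_iff_le_exp (by linarith)).2 (hx j)
    have h6 : 0 ≤ Real.log (qs j) := Real.log_nonneg (by linarith)
    have h7 : (1 + g) * Real.log (qs j) ≤ 2 * x := by nlinarith
    have h8 : 0 ≤ Real.log 4 := Real.log_nonneg (by norm_num)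
    have h9 : 0 ≤ (1 + g) * Real.log (qs j) := by positivity
    have h10 : 0 ≤ 1 + Lq g qs j := by unfold Lq; linarith
    calc (qs j : ℝ) ^ (-g) * (1 + Lq g qs j) ≤ 1 * (1 + Lq g qs j) :=
          mul_le_mul_of_nonneg_right h4 h10
      _ ≤ 2 * x + 3 := by unfold Lq; linarith
  have hcard : (Fintype.card ι : ℝ) ≤ Real.exp x := by
    have h3 : Fintype.card ι ≤ ⌊Real.exp x⌋₊ := by
      have h4 : (Finset.univ.image qs) ⊆ Finset.Icc 1 ⌊Real.exp x⌋₊ := by
        intro n hn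
        obtain ⟨i, -, rfl⟩ := Finset.mem_image.1 hn
        rw [Finset.mem_Icc]
        exact ⟨by have := h2 i; omega, Nat.le_floor (hx i)⟩
      have h5 := Finset.card_le_card h4
      rw [Finset.card_image_of_injective _ inj, Nat.card_Icc, Nat.add_sub_cancel] at h5
      exact h5
    exact (by exact_mod_cast h3 : (Fintype.card ι : ℝ) ≤ ⌊Real.exp x⌋₊).trans
      (Nat.floor_le (Real.exp_pos _).le)
  calc ∑ j, (qs j : ℝ) ^ (-g) * (1 + Lq g qs j) ≤ ∑ _j : ι, (2 * x + 3) :=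
        Finset.sum_le_sum fun j _ => h1 j
    _ = Fintype.card ι * (2 * x + 3) := by
        rw [Finset.sum_const, nsmul_eq_mul, Finset.card_univ]
    _ ≤ Real.exp x * (2 * x + 3) := mul_le_mul_of_nonneg_right hcard (by linarith)

theorem log100_le : Real.log 100 ≤ 7 := by
  rw [Real.log_le_iff_le_exp (by norm_num)]
  have h3 : (2.7182818283 : ℝ) ^ 7 ≤ Real.exp 1 ^ 7 :=
    pow_le_pow_left₀ (by norm_num) Real.exp_one_gt_d9.le 7
  rw [← Real.exp_nat_mul] at h3
  norm_num at h3 ⊢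
  linarith

/-- the length of the window -/
theorem window_F {P k N h0 : ℝ} (hk : 2 ≤ k) (hP : 60 ≤ P) (hN : Real.exp (P / 2) ≤ N)
    (hNh : N ≤ 100 * h0) : Real.exp (P / (16 * k)) * (2 * Real.exp (P / 4)) ≤ h0 := by
  have h2 : P / (16 * k) ≤ P / 32 :=
    div_le_div_of_nonneg_left (by linarith) (by norm_num) (by linarith)
  have h3 : Real.exp (P / (16 * k)) * (2 * Real.exp (P / 4)) ≤
      2 * Real.exp (P / 32 + P / 4) := by
    have h4 := mul_le_mul_of_nonneg_right (Real.exp_le_exp.2 h2) (Real.exp_pos (P / 4)).le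
    rw [Real.exp_add]
    linarith
  have h6 : 200 * Real.exp (P / 32 + P / 4) ≤ Real.exp (P / 2) := by
    have h7 : (200 : ℝ) ≤ Real.exp 8 := by
      have h3 : (2.7182818283 : ℝ) ^ 8 ≤ Real.exp 1 ^ 8 :=
        pow_le_pow_left₀ (by norm_num) Real.exp_one_gt_d9.le 8
      rw [← Real.exp_nat_mul] at h3
      norm_num at h3 ⊢
      linarith
    calc 200 * Real.exp (P / 32 + P / 4) ≤ Real.exp 8 * Real.exp (P / 32 + P / 4) :=
          mul_le_mul_of_nonneg_right h7 (Real.exp_pos _).le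
      _ = Real.exp (8 + (P / 32 + P / 4)) := by rw [← Real.exp_add]
      _ ≤ _ := Real.exp_le_exp.2 (by linarith)
  linarith

/-- the pins of the state -/
theorem pin_F {q : FP} {k : ℕ} {κ γ A0 Λ P : ℝ} (ok : FPOk q k κ) (hA : 3 ≤ A0)
    (hγ : 8 * q.g ≤ γ) (hbe : q.be ≤ γ / 4) (hK1 : Real.log 4 ≤ q.g * Real.log q.K0)
    (hK2 : 4 * Real.log 2 ≤ γ * Real.log q.K0) {R : ℕ} {ι : Type} [Fintype ι] [DecidableEq ι]
    {qs sc : ι → ℕ} {ns : ℕ} (hqW : ∀ i, qs i ∈ WF q k R P) (inj : Function.Injective qs)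
    (sc1 : ∀ i, qs i ≤ 2 ^ sc i) (scn : ∀ i, sc i < ns) (Λ0 : 0 < Λ)
    (hl : ∀ i, 4 * Real.log (qs i) ≤ Λ) :
    PinNum γ A0 q.g q.be q.ga (WF q k R P) qs sc ns Λ 0 := by
  have hg := ok.g0
  have hγ0 : 0 < γ := by linarith
  have hK01 : 1 ≤ q.K0 := by
    by_contra hcon
    have h1 : q.K0 = 0 := by omega
    rw [h1, Nat.cast_zero, Real.log_zero, mul_zero] at hK1
    have : 0 < Real.log 4 := Real.log_pos (by norm_num)
    linarith
  refine pinNum_of hA hg ok.g1 ok.be0.le ok.ga0.le le_rfl hγ0.le ?_ hK01 hK1 ?_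
    (fun p hp => ⟨(WF_prime hp).1, ?_⟩) hqW inj sc1 scn Λ0 hl
  · have h1 : 2 * q.g + q.be ≤ γ / 2 := by linarith
    have h2 : Real.log 2 ≤ 1 := by linarith [Real.log_two_lt_d9]
    have h4 : 0 ≤ 2 * q.g + q.be := by have := ok.be0; linarith
    have h5 := mul_le_mul_of_nonneg_left h2 h4
    linarith
  · have h3 : 0 < Real.log 2 := Real.log_pos (by norm_num)
    rw [mul_div_assoc', le_div_iff₀ h3]
    linarith
  · have h1 := (WF_prime hp).2.1
    have h2 : q.K0 ≤ max (max q.K0 R) (2 * k) := (le_max_left _ _).trans (le_max_left _ _)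
    omega

/-- **the numbers of the law slots**: `Dm = kp P / 64`, `Lq = P / (16 k)`, `Λ = θ P`,
`Ds = g P / (5200 C1)`, `del = P ^ (-(C1 + 3))` -/
theorem lawNum_F {q : FP} {k : ℕ} {κ γ A0 θ : ℝ} (ok : FPOk q k κ) (hk : 2 ≤ k) (hA : 3 ≤ A0)
    (hγ : 8 * q.g ≤ γ) (hbe : q.be ≤ γ / 4) (hK1 : Real.log 4 ≤ q.g * Real.log q.K0)
    (hK2 : 4 * Real.log 2 ≤ γ * Real.log q.K0) (θ0 : 0 < θ) (θ1 : θ ≤ 1 / (32000 * q.C1)) :
    ∃ P0 : ℝ, ∀ P : ℝ, P0 ≤ P → ∀ (R : ℕ) {ι : Type} [Fintype ι] [DecidableEq ι]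
      (qs sc : ι → ℕ) (ns N h0 q0 : ℕ) (QM : ℝ), (∀ i, qs i ∈ WF q k R P) →
      Function.Injective qs → (∀ i, qs i ≤ 2 ^ sc i) → (∀ i, sc i < ns) → 1 ≤ N →
      P / 2 ≤ Real.log N → N ≤ 100 * h0 →
      (q0 : ℝ) * QM ≤ Real.exp (P / (16 * k) - 3 * (θ * P)) →
      LawNum q (WF q k R P) N h0 q0 (q.kp * P / 64) (P / (16 * k)) P qs sc ns γ A0 (θ * P)
        (q.g / (5200 * q.C1) * P) (Real.exp (-((q.C1 + 3) * Real.log P))) QM := by
  have hg := ok.g0
  have hC := ok.C11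
  have hC0 : 0 < q.C1 := by linarith
  have hkp := ok.kp0
  have hγ0 : 0 < γ := by linarith
  obtain ⟨x, hxd⟩ : ∃ x : ℝ, x = q.g / q.C1 := ⟨_, rfl⟩
  have hx : 0 < x := by rw [hxd]; exact div_pos hg hC0
  have eS : q.g / (5200 * q.C1) = x / 5200 := by rw [hxd, div_div, mul_comm q.C1]
  have eT : q.g / (2560 * q.C1) = x / 2560 := by rw [hxd, div_div, mul_comm q.C1]
  have hkx : q.kp ≤ x / 2560 := by rw [← eT]; exact ok.kpg
  have hθx : 6 * q.g * θ ≤ x * (6 / 32000) := by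
    have h1 : 6 * q.g * θ ≤ 6 * q.g * (1 / (32000 * q.C1)) :=
      mul_le_mul_of_nonneg_left θ1 (by positivity)
    refine h1.trans (le_of_eq ?_)
    rw [hxd]
    field_simp
  obtain ⟨l1, hl1⟩ := Filter.eventually_atTop.1 (ev_pow (g := q.g) (κ := q.kp / 64) hg
    (by positivity))
  obtain ⟨l2, hl21, hl2⟩ := ev_lin (c := x * (4 / 1000000)) (by positivity) (q.C1 + 3) 1
  obtain ⟨l3, hl31, hl3⟩ := ev_lin θ0 (4 * q.C1) 0
  obtain ⟨l4, hl41, hl4⟩ := ev_lin (c := 1) one_pos (2 * q.C1) 3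
  refine ⟨max (max (Real.exp (max l1 l2)) (Real.exp (max l3 l4)))
    (max (max (8 * 10 ^ 5 / x) (500 / q.kp)) 60), ?_⟩
  intro P hP R ι _ _ qs sc ns N h0 q0 QM hqW inj sc1 scn N1 hN hNh hQ
  have p0 : Real.exp (max l1 l2) ≤ P :=
    ((le_max_left _ _).trans (le_max_left _ _)).trans hP
  have p1 : Real.exp (max l3 l4) ≤ P :=
    ((le_max_right _ _).trans (le_max_left _ _)).trans hP
  have p2 : 8 * 10 ^ 5 / x ≤ P :=
    (((le_max_left _ _).trans (le_max_left _ _)).trans (le_max_right _ _)).trans hP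
  have p3 : 500 / q.kp ≤ P :=
    (((le_max_right _ _).trans (le_max_left _ _)).trans (le_max_right _ _)).trans hP
  have p4 : 60 ≤ P := ((le_max_right _ _).trans (le_max_right _ _)).trans hP
  rw [div_le_iff₀ hx] at p2
  rw [div_le_iff₀ hkp] at p3
  have hP0 : 0 < P := by linarith
  obtain ⟨l, rfl⟩ : ∃ l, P = Real.exp l := ⟨Real.log P, (Real.exp_log hP0).symm⟩
  rw [Real.exp_le_exp] at p0 p1
  have q1 : l1 ≤ l := (le_max_left _ _).trans p0
  have q2 : l2 ≤ l := (le_max_right _ _).trans p0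
  have q3 : l3 ≤ l := (le_max_left _ _).trans p1
  have q4 : l4 ≤ l := (le_max_right _ _).trans p1
  have hl1' : 1 ≤ l := hl21.trans q2
  have hM0 : (0 : ℝ) < N := by exact_mod_cast N1
  have hMexp : Real.exp (Real.exp l / 2) ≤ N := by
    rw [← Real.le_log_iff_exp_le hM0]; exact hN
  have hkR : (2 : ℝ) ≤ k := by exact_mod_cast hk
  have hWY : ∀ p ∈ WF q k R (Real.exp l), (p : ℝ) ≤ Real.exp (q.C1 * l) := fun p hp => by
    have h2 := (WF_prime hp).2.2
    rwa [← Real.exp_mul, mul_comm l] at h2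
  have hq2 : ∀ i, 2 ≤ qs i := fun i => (WF_prime (hqW i)).1.two_le
  have hqY : ∀ i, (qs i : ℝ) ≤ Real.exp (q.C1 * l) := fun i => hWY _ (hqW i)
  refine
    { pin := ?_
      D100 := ?_
      Y := fun p hp => by rw [Real.log_exp]; exact hWY p hp
      P1 := by linarith
      Ds0 := by rw [eS]; positivity
      thin := ?_
      NP := (Real.exp_le_exp.2 (by linarith)).trans hMexp
      VP := ?_
      Dm2 := ?_
      del0 := Real.exp_pos _
      del1 := ?_
      delB := ?_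
      DsΛ := ?_
      DM := ?_ }
  · refine pin_F ok hA hγ hbe hK1 hK2 hqW inj sc1 scn (by positivity) fun i => ?_
    have h1 : (2 : ℝ) ≤ qs i := by exact_mod_cast hq2 i
    have h2 : Real.log (qs i) ≤ q.C1 * l := (Real.log_le_iff_le_exp (by linarith)).2 (hqY i)
    have h3 := hl3 l q3
    linarith
  · have h1 := log100_le
    linarith
  · have h2 : Real.log 2 ≤ 1 := by linarith [Real.log_two_lt_d9]
    rw [eS, eT]
    have h6 : q.kp * Real.exp l ≤ x / 2560 * Real.exp l :=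
      mul_le_mul_of_nonneg_right hkx hP0.le
    have h7 : 0 < x * Real.exp l := mul_pos hx hP0
    linarith
  · exact window_F hkR p4 hMexp (by exact_mod_cast hNh)
  · have h2 := hl1 l q1
    rw [Real.log_exp]
    linarith
  · rw [Real.exp_le_one_iff, Real.log_exp]
    have : 0 ≤ (q.C1 + 3) * l := by positivity
    linarith
  · rw [Real.log_exp]
    have h1 := sum_atoms hg.le ok.g1 (by positivity : 0 ≤ q.C1 * l) inj hq2 hqY
    have h2 := hl4 l q4
    have h3 := Real.exp_pos (-((q.C1 + 3) * l))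
    have h4 : Real.exp (-((q.C1 + 3) * l)) * (Real.exp (q.C1 * l) * Real.exp l) ≤ 1 := by
      rw [← Real.exp_add, ← Real.exp_add, Real.exp_le_one_iff]
      linarith
    have h5 : Real.exp (q.C1 * l) * (2 * (q.C1 * l) + 3) ≤
        Real.exp (q.C1 * l) * Real.exp l :=
      mul_le_mul_of_nonneg_left (by linarith) (Real.exp_pos _).le
    exact (mul_le_mul_of_nonneg_left (h1.trans h5) h3.le).trans h4
  · rw [Real.log_exp, one_div, Real.log_inv, Real.log_exp, eS]
    have h1 := hl2 l q2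
    have h2 : Real.log 2 ≤ 1 := by linarith [Real.log_two_lt_d9]
    have h3 : 6 * q.g * θ * Real.exp l ≤ x * (6 / 32000) * Real.exp l :=
      mul_le_mul_of_nonneg_right hθx hP0.le
    have h7 : 0 < x * Real.exp l := mul_pos hx hP0
    linarith
  · have h1 : Real.exp (Real.exp l / (16 * k)) =
        Real.exp (Real.exp l / (16 * k) - 3 * (θ * Real.exp l)) * Real.exp (3 * (θ * Real.exp l)) := by
      rw [← Real.exp_add]
      congr 1
      ring
    rw [h1]
    exact mul_le_mul_of_nonneg_right hQ (Real.exp_pos _).le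

end Vale.Agent.P042.H743
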