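import Vale.Agent.P042.H743.PinQ
import Vale.Agent.P042.H461.LMass
import Vale.Agent.P042.H482.MixF1

/-!
# P042, power regime: the hypotheses of (F1*) for the image of a cell of the state

`thick_of` : helper482's `Thick` for the law of a cell;
`thickG_of`: helper461's `ThickG` for the law of a sub-cell.
-/

set_option autoImplicit false
set_option linter.unusedSectionVars false

namespace Vale.Agent.P042.H743

open Finset Vale.Agent.P042.H461 Vale.Agent.P042.H858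
open Vale.Agent.P042.H599 (cm Law)
open Vale.Agent.P042.H945 (SM kl2 klc ms cl)
open Vale.Agent.P042.H779 (marg m1 phi)
open Vale.Agent.P042.H779.Ab (ce gdw Di Ref At)
open Vale.Agent.P042.H482 (mi)

/-- the split cost: `be` per unit of `log D`, `p ^ (-ga)` per prime of the state -/
noncomputable def cstF (W : Finset ℕ) (be ga cw : ℝ) (D : ℕ) : ℝ :=
  be * Real.log D + cw + ∑ p ∈ W with p ∣ D, (p : ℝ) ^ (-ga)

theorem cstF_nonneg {W : Finset ℕ} {be ga cw : ℝ} (hbe : 0 ≤ be) (hcw : 0 ≤ cw) {D : ℕ}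
    (hD : 1 ≤ D) : 0 ≤ cstF W be ga cw D := by
  unfold cstF
  have h1 : 0 ≤ Real.log D := Real.log_nonneg (by exact_mod_cast hD)
  have h2 : 0 ≤ ∑ p ∈ W with p ∣ D, (p : ℝ) ^ (-ga) := Finset.sum_nonneg fun p _ => by positivity
  have := mul_nonneg hbe h1
  linarith

section
variable {ι : Type*} [Fintype ι] [DecidableEq ι]

/-- the cost is additive in the pins -/
theorem cstF_pins {W : Finset ℕ} (hW : ∀ p ∈ W, p.Prime) {be ga cw : ℝ} {q : ι → ℕ}
    (hqW : ∀ i, q i ∈ W) (hinj : Function.Injective q) {D0 : ℕ} (hD0 : 1 ≤ D0) (P : Finset ι) :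
    cstF W be ga cw (D0 * ∏ i ∈ P, q i) ≤
      cstF W be ga cw D0 + ∑ i ∈ P, (be * Real.log (q i) + (q i : ℝ) ^ (-ga)) := by
  classical
  have hq0 : ∀ i, (q i : ℝ) ≠ 0 := fun i => by exact_mod_cast (hW _ (hqW i)).ne_zero
  have hlog : Real.log ((D0 * ∏ i ∈ P, q i : ℕ) : ℝ) =
      Real.log D0 + ∑ i ∈ P, Real.log (q i) := by
    push_cast
    rw [Real.log_mul (by exact_mod_cast (by omega : D0 ≠ 0))
      (Finset.prod_ne_zero_iff.2 fun i _ => hq0 i), Real.log_prod]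
    exact fun i _ => hq0 i
  have hsub : W.filter (fun p => p ∣ D0 * ∏ i ∈ P, q i) ⊆
      W.filter (fun p => p ∣ D0) ∪ P.image q := by
    intro p hp
    obtain ⟨hpW, hpd⟩ := Finset.mem_filter.1 hp
    rw [Finset.mem_union, Finset.mem_filter, Finset.mem_image]
    rcases (hW p hpW).dvd_mul.1 hpd with h | h
    · exact Or.inl ⟨hpW, h⟩
    · obtain ⟨i, hi, hpi⟩ := (Prime.dvd_finsetProd_iff (hW p hpW).prime q).1 h
      exact Or.inr ⟨i, hi, ((Nat.prime_dvd_prime_iff_eq (hW p hpW) (hW _ (hqW i))).1 hpi).symm⟩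
  have hsum : ∑ p ∈ W with p ∣ D0 * ∏ i ∈ P, q i, (p : ℝ) ^ (-ga) ≤
      (∑ p ∈ W with p ∣ D0, (p : ℝ) ^ (-ga)) + ∑ i ∈ P, (q i : ℝ) ^ (-ga) := by
    refine (Finset.sum_le_sum_of_subset_of_nonneg hsub fun p _ _ => by positivity).trans ?_
    refine (Finset.sum_union_inter (s₁ := W.filter (fun p => p ∣ D0)) (s₂ := P.image q)
      (f := fun p : ℕ => (p : ℝ) ^ (-ga))).le.trans' ?_ |>.trans ?_
    · have : 0 ≤ ∑ p ∈ W.filter (fun p => p ∣ D0) ∩ P.image q, (p : ℝ) ^ (-ga) :=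
        Finset.sum_nonneg fun p _ => by positivity
      linarith
    · rw [Finset.sum_image fun i _ j _ h => hinj h]
  unfold cstF
  rw [hlog, Finset.sum_add_distrib, ← Finset.mul_sum]
  linarith

variable {V : ι → Type*} [∀ i, Fintype (V i)] [∀ i, DecidableEq (V i)]

/-- the sites and the numbers: dyadic scales of primes of the state -/
structure PinNum (γ A0 g be ga : ℝ) (W : Finset ℕ) (q : ι → ℕ) (sc : ι → ℕ) (ns : ℕ)
    (Λ a : ℝ) : Prop where
  hW : ∀ p ∈ W, p.Prime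
  qW : ∀ i, q i ∈ W
  inj : Function.Injective q
  sc1 : ∀ i, q i ≤ 2 ^ sc i
  scn : ∀ i, sc i < ns
  A0' : 3 ≤ A0
  g0 : 0 ≤ g
  g1 : g ≤ 1
  be0 : 0 ≤ be
  ga0 : 0 ≤ ga
  a0 : 0 ≤ a
  K4 : ∀ i, Real.log 4 ≤ g * Real.log (q i)
  hγ : ∀ i, (2 * g + be) * (sc i * Real.log 2) + (a + 2) ≤ γ * sc i
  Λ0 : 0 < Λ
  ℓΛ : ∀ i, 4 * Real.log (q i) ≤ Λ

variable {γ A0 g be ga : ℝ} {W : Finset ℕ} {q : ι → ℕ} {sc : ι → ℕ} {ns : ℕ} {Λ a : ℝ}

theorem PinNum.lq (h : PinNum γ A0 g be ga W q sc ns Λ a) (i : ι) :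
    0 < Real.log (q i) ∧ Real.log (q i) ≤ sc i * Real.log 2 ∧ (1 : ℝ) ≤ sc i := by
  have hp := h.hW _ (h.qW i)
  have h2 : (2 : ℝ) ≤ q i := by exact_mod_cast hp.two_le
  have h3 : (q i : ℝ) ≤ 2 ^ sc i := by exact_mod_cast h.sc1 i
  refine ⟨Real.log_pos (by linarith), ?_, ?_⟩
  · have h4 := Real.log_le_log (by linarith) h3
    rwa [Real.log_pow] at h4
  · by_contra hlt
    push Not at hlt
    have h5 : sc i = 0 := by
      by_contra hne
      have : (1 : ℝ) ≤ sc i := by exact_mod_cast Nat.one_le_iff_ne_zero.2 hne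
      linarith
    rw [h5, pow_zero] at h3
    linarith

theorem PinNum.card (h : PinNum γ A0 g be ga W q sc ns Λ a) (s : ℕ) :
    ((At sc s).card : ℝ) ≤ Real.exp (Real.log 2 * s) := by
  have h1 : (At sc s).card ≤ 2 ^ s := by
    have h2 : (At sc s).card = ((At sc s).image q).card :=
      (Finset.card_image_of_injective _ h.inj).symm
    rw [h2]
    have h3 : (At sc s).image q ⊆ Finset.Icc 1 (2 ^ s) := by
      intro n hn
      obtain ⟨i, hi, rfl⟩ := Finset.mem_image.1 hn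
      unfold At at hi
      rw [Finset.mem_filter] at hi
      have h4 := h.sc1 i
      rw [hi.2] at h4
      rw [Finset.mem_Icc]
      exact ⟨(h.hW _ (h.qW i)).pos, h4⟩
    have h5 := Finset.card_le_card h3
    simpa using h5
  rw [mul_comm, Real.exp_nat_mul, Real.exp_log (by norm_num)]
  exact_mod_cast h1

theorem log4 : Real.log 4 = 2 * Real.log 2 := by
  rw [show (4 : ℝ) = 2 ^ 2 by norm_num, Real.log_pow]; norm_num

/-- logarithm of the inverse of the smallest atom -/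
noncomputable def Lq (g : ℝ) (q : ι → ℕ) (i : ι) : ℝ := (1 + g) * Real.log (q i) + Real.log 4

/-- cost of an atom -/
noncomputable def Aq (g : ℝ) (q : ι → ℕ) (i : ι) : ℝ := g * Real.log (q i) + Real.log 4

/-- cost of a pin -/
noncomputable def αq (be ga : ℝ) (q : ι → ℕ) (i : ι) : ℝ :=
  be * Real.log (q i) + (q i : ℝ) ^ (-ga)

theorem PinNum.L1 (h : PinNum γ A0 g be ga W q sc ns Λ a) (i : ι) : 1 ≤ Lq g q i := by
  have h1 := (h.lq i).1
  have h2 : 1 ≤ Real.log 4 := by rw [log4]; linarith [Real.log_two_gt_d9]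
  have := mul_pos (by linarith [h.g0] : 0 < 1 + g) h1
  unfold Lq; linarith

theorem PinNum.LA (h : PinNum γ A0 g be ga W q sc ns Λ a) (i : ι) : Lq g q i ≤ A0 * sc i := by
  obtain ⟨h1, h2, h3⟩ := h.lq i
  have h4 : (1 + g) * Real.log (q i) ≤ 2 * Real.log (q i) :=
    mul_le_mul_of_nonneg_right (by linarith [h.g1]) h1.le
  have h5 : Real.log 2 ≤ 0.7 := by linarith [Real.log_two_lt_d9]
  have h6 : 3 * (sc i : ℝ) ≤ A0 * sc i := mul_le_mul_of_nonneg_right h.A0' (by linarith)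
  have h7 : (sc i : ℝ) * Real.log 2 ≤ sc i * 0.7 := mul_le_mul_of_nonneg_left h5 (by linarith)
  unfold Lq
  rw [log4]
  linarith

theorem PinNum.Aq0 (h : PinNum γ A0 g be ga W q sc ns Λ a) (i : ι) : 0 ≤ Aq g q i := by
  have h1 := mul_nonneg h.g0 (h.lq i).1.le
  have h2 : 0 ≤ Real.log 4 := Real.log_nonneg (by norm_num)
  unfold Aq; linarith

theorem PinNum.Aq_le (h : PinNum γ A0 g be ga W q sc ns Λ a) (i : ι) :
    Aq g q i ≤ 2 * g * Real.log (q i) := by
  have := h.K4 i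
  unfold Aq; linarith

theorem PinNum.αq0 (h : PinNum γ A0 g be ga W q sc ns Λ a) (i : ι) : 0 ≤ αq be ga q i := by
  have h1 := mul_nonneg h.be0 (h.lq i).1.le
  unfold αq; positivity

theorem PinNum.gH (h : PinNum γ A0 g be ga W q sc ns Λ a) (i : ι) :
    αq be ga q i + Aq g q i + a + Real.log 2 ≤ γ * sc i := by
  obtain ⟨h1, h2, h3⟩ := h.lq i
  have h4 := h.hγ i
  have h5 := h.Aq_le i
  have h6 : (q i : ℝ) ^ (-ga) ≤ 1 := Real.rpow_le_one_of_one_le_of_nonpos
    (by exact_mod_cast (h.hW _ (h.qW i)).one_lt.le) (by linarith [h.ga0])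
  have h7 : Real.log 2 < 1 := by linarith [Real.log_two_lt_d9]
  have h8 : (2 * g + be) * Real.log (q i) ≤ (2 * g + be) * (sc i * Real.log 2) :=
    mul_le_mul_of_nonneg_left h2 (by linarith [h.g0, h.be0])
  unfold αq
  linarith

theorem PinNum.lam1 (h : PinNum γ A0 g be ga W q sc ns Λ a) (i : ι) :
    Real.exp (-(γ * sc i)) ≤ (q i : ℝ) ^ (-g) := by
  obtain ⟨h1, h2, h3⟩ := h.lq i
  have h4 := h.hγ i
  have hq : (0 : ℝ) < q i := by exact_mod_cast (h.hW _ (h.qW i)).pos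
  rw [Real.rpow_def_of_pos hq]
  refine Real.exp_le_exp.2 ?_
  have h8 : g * Real.log (q i) ≤ g * (sc i * Real.log 2) := mul_le_mul_of_nonneg_left h2 h.g0
  have h9 : 0 ≤ be * (sc i * Real.log 2) := mul_nonneg h.be0 (by linarith)
  have h10 : 0 ≤ g * (sc i * Real.log 2) := mul_nonneg h.g0 (by linarith)
  have := h.a0
  nlinarith

theorem PinNum.a1 (h : PinNum γ A0 g be ga W q sc ns Λ a) (i : ι) :
    a + 2 ≤ Real.exp (γ * sc i) := by
  obtain ⟨h1, h2, h3⟩ := h.lq i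
  have h4 := h.hγ i
  have h9 : 0 ≤ (2 * g + be) * (sc i * Real.log 2) :=
    mul_nonneg (by linarith [h.g0, h.be0]) (by linarith)
  linarith [Real.add_one_le_exp (γ * sc i)]

theorem PinNum.lenP (h : PinNum γ A0 g be ga W q sc ns Λ a) {X : ℝ} {P : Finset ι}
    (hP : H779.Ab.Ll.len (fun i => Real.log (q i)) P ≤ X) :
    (∏ i ∈ P, (q i : ℝ)) ≤ Real.exp X ∧ ∑ i ∈ P, Aq g q i ≤ 2 * g * X := by
  constructor
  · have h1 : (∏ i ∈ P, (q i : ℝ)) = Real.exp (H779.Ab.Ll.len (fun i => Real.log (q i)) P) := by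
      unfold H779.Ab.Ll.len
      rw [Real.exp_sum]
      exact Finset.prod_congr rfl fun i _ =>
        (Real.exp_log (by exact_mod_cast (h.hW _ (h.qW i)).pos)).symm
    rw [h1]
    exact Real.exp_le_exp.2 hP
  · calc ∑ i ∈ P, Aq g q i ≤ ∑ i ∈ P, 2 * g * Real.log (q i) :=
        Finset.sum_le_sum fun i _ => h.Aq_le i
      _ = 2 * g * H779.Ab.Ll.len (fun i => Real.log (q i)) P := by
        unfold H779.Ab.Ll.len; rw [Finset.mul_sum]
      _ ≤ 2 * g * X := mul_le_mul_of_nonneg_left hP (by linarith [h.g0])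

/-- the uniform reference -/
noncomputable def uq (q : ι → ℕ) (i : ι) (_ : V i) : ℝ := ((q i : ℕ) : ℝ)⁻¹

variable {r : ∀ i, ℕ → V i} {mu : ℕ → ℝ} {N D0 w0 u v : ℕ} {DM Ds Vv : ℝ}

/-- the marginals of the image law are the class masses -/
theorem m1_cm (hr : ∀ i n m, r i n = r i m ↔ n ≡ m [MOD q i]) {i : ι}
    (hq : 0 < q i) (b : V i) : m1 (pf r mu 1 N) i b = 0 ∨
      ∃ a, a < q i ∧ m1 (pf r mu 1 N) i b = cm mu 1 N (q i) a := by
  classical
  have h1 : m1 (pf r mu 1 N) i b = SM N (fun n => mu n * if r i n = b then 1 else 0) := by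
    unfold m1
    have h2 : ∀ y : ∀ i, V i, (if y i = b then pf r mu 1 N y else 0) =
        pf r mu 1 N y * (if y i = b then 1 else 0) := fun y => by split_ifs <;> simp
    rw [Finset.sum_congr rfl fun y _ => h2 y, sum_pf]
  by_cases hex : ∃ n, r i n = b
  · obtain ⟨n0, hn0⟩ := hex
    refine Or.inr ⟨n0 % q i, Nat.mod_lt _ hq, ?_⟩
    rw [h1]
    unfold cm SM
    refine Finset.sum_congr rfl fun k _ => ?_
    have h3 : r i (1 + k) = b ↔ (1 + k) % q i = n0 % q i := by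
      rw [← hn0]; exact hr i _ _
    show mu (1 + k) * (if r i (1 + k) = b then 1 else 0) = _
    by_cases h : r i (1 + k) = b
    · rw [if_pos h, if_pos (h3.1 h), mul_one]
    · rw [if_neg h, if_neg fun h' => h (h3.2 h'), mul_zero]
  · refine Or.inl ?_
    rw [h1]
    push Not at hex
    unfold SM
    refine Finset.sum_eq_zero fun k _ => ?_
    show mu (1 + k) * (if r i (1 + k) = b then 1 else 0) = 0
    rw [if_neg (hex _), mul_zero]

/-- atoms of the reference -/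
theorem atoms_w (hN : PinNum γ A0 g be ga W q sc ns Λ a) (_law : Law mu 1 N)
    (hr : ∀ i n m, r i n = r i m ↔ n ≡ m [MOD q i])
    (atom : ∀ p ∈ W, ∀ a, cm mu 1 N p a = 0 ∨ (p : ℝ) ^ (-g) / (4 * p) ≤ cm mu 1 N p a)
    (i : ι) (b : V i) : m1 (pf r mu 1 N) i b = 0 ∨
      Real.exp (-Lq g q i) ≤ m1 (pf r mu 1 N) i b := by
  rcases m1_cm hr (hN.hW _ (hN.qW i)).pos b with h | ⟨a, _, h⟩
  · exact Or.inl h
  · rw [h]
    rcases atom _ (hN.qW i) a with h1 | h1
    · exact Or.inl h1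
    · refine Or.inr (le_trans (le_of_eq ?_) h1)
      have hq : (0 : ℝ) < q i := by exact_mod_cast (hN.hW _ (hN.qW i)).pos
      unfold Lq
      rw [show -((1 + g) * Real.log (q i) + Real.log 4) =
        Real.log (q i) * (-g) - Real.log (q i) - Real.log 4 by ring, Real.exp_sub, Real.exp_sub,
        Real.exp_log hq, Real.exp_log (by norm_num), ← Real.rpow_def_of_pos hq]
      field_simp

theorem w2A_w (hN : PinNum γ A0 g be ga W q sc ns Λ a) (law : Law mu 1 N)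
    (hr : ∀ i n m, r i n = r i m ↔ n ≡ m [MOD q i])
    (atom : ∀ p ∈ W, ∀ a, cm mu 1 N p a = 0 ∨ (p : ℝ) ^ (-g) / (4 * p) ≤ cm mu 1 N p a)
    (i : ι) (b : V i) : m1 (pf r mu 1 N) i b = 0 ∨ (0 < uq (V := V) q i b ∧
      uq (V := V) q i b ≤ Real.exp (Aq g q i) * m1 (pf r mu 1 N) i b) := by
  have hq : (0 : ℝ) < q i := by exact_mod_cast (hN.hW _ (hN.qW i)).pos
  rcases atoms_w hN law hr atom i b with h | h
  · exact Or.inl h
  · refine Or.inr ⟨inv_pos.2 hq, ?_⟩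
    have h1 : uq (V := V) q i b = Real.exp (Aq g q i) * Real.exp (-Lq g q i) := by
      unfold uq Aq Lq
      rw [← Real.exp_add, show g * Real.log (q i) + Real.log 4 +
        -((1 + g) * Real.log (q i) + Real.log 4) = -Real.log (q i) by ring, Real.exp_neg,
        Real.exp_log hq]
    rw [h1]
    exact mul_le_mul_of_nonneg_left h (Real.exp_pos _).le

/-- comparison of the two densities -/
theorem gdw_u (hN : PinNum γ A0 g be ga W q sc ns Λ a) (law : Law mu 1 N)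
    (hr : ∀ i n m, r i n = r i m ↔ n ≡ m [MOD q i])
    (atom : ∀ p ∈ W, ∀ a, cm mu 1 N p a = 0 ∨ (p : ℝ) ^ (-g) / (4 * p) ≤ cm mu 1 N p a)
    {ν : (∀ i, V i) → ℝ} {P : Finset ι} {x : ∀ i, V i} (hx : 0 ≤ marg ν P x)
    (hw : 0 < ∏ i ∈ P, m1 (pf r mu 1 N) i (x i)) :
    gdw (fun i => m1 (pf r mu 1 N) i) ν P x * Real.exp (-∑ i ∈ P, Aq g q i) ≤
      gdw (uq (V := V) q) ν P x := by
  have hq : ∀ i, (0 : ℝ) < q i := fun i => by exact_mod_cast (hN.hW _ (hN.qW i)).pos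
  have hu : 0 < ∏ i ∈ P, uq (V := V) q i (x i) := Finset.prod_pos fun i _ => inv_pos.2 (hq i)
  have h1 : ∏ i ∈ P, uq (V := V) q i (x i) ≤
      Real.exp (∑ i ∈ P, Aq g q i) * ∏ i ∈ P, m1 (pf r mu 1 N) i (x i) := by
    rw [Real.exp_sum, ← Finset.prod_mul_distrib]
    refine Finset.prod_le_prod (fun i _ => (inv_pos.2 (hq i)).le) fun i hi => ?_
    rcases w2A_w hN law hr atom i (x i) with h | h
    · exact absurd (Finset.prod_eq_zero hi h) hw.ne'
    · exact h.2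
  unfold gdw
  rw [le_div_iff₀ hu, Real.exp_neg, div_mul_eq_mul_div, div_mul_eq_mul_div, div_le_iff₀ hw]
  have h2 : (Real.exp (∑ i ∈ P, Aq g q i))⁻¹ * ∏ i ∈ P, uq (V := V) q i (x i) ≤
      ∏ i ∈ P, m1 (pf r mu 1 N) i (x i) := by
    rw [inv_mul_le_iff₀ (Real.exp_pos _)]
    exact h1
  calc marg ν P x * (Real.exp (∑ i ∈ P, Aq g q i))⁻¹ * ∏ i ∈ P, uq (V := V) q i (x i)
      = marg ν P x * ((Real.exp (∑ i ∈ P, Aq g q i))⁻¹ * ∏ i ∈ P, uq (V := V) q i (x i)) := by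
        ring
    _ ≤ _ := mul_le_mul_of_nonneg_left h2 hx

theorem gdw_uq {ν : (∀ i, V i) → ℝ} (P : Finset ι)
    (x : ∀ i, V i) : gdw (uq (V := V) q) ν P x = (∏ i ∈ P, (q i : ℝ)) * marg ν P x := by
  unfold gdw uq
  rw [Finset.prod_inv_distrib, div_inv_eq_mul, mul_comm]

/-- **the pins inequality, with the numbers**: base cell `(D0, w0)`, `hh` = logarithm of the
inverse density of the base cell, `s` = thinness allowed in the own reference -/
theorem pins_num (hN : PinNum γ A0 g be ga W q sc ns Λ a)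
    (B : CellB q r mu N W (fun p => (p : ℝ) ^ (-g)) D0 w0 u v (fun i => (q i : ℝ) ^ (-g)))
    {cw : ℝ} (hQL : QLc mu N W (fun p => (p : ℝ) ^ (-g)) (cstF W be ga cw) DM Ds Vv u v)
    (atom : ∀ p ∈ W, ∀ a, cm mu 1 N p a = 0 ∨ (p : ℝ) ^ (-g) / (4 * p) ≤ cm mu 1 N p a)
    (hV : 0 < Vv) {X s : ℝ} {P : Finset ι}
    (hP : H779.Ab.Ll.len (fun i => Real.log (q i)) P ≤ X) (hDM : D0 * Real.exp X ≤ DM)
    (hs : s + 2 * g * X ≤ Ds) (x : ∀ i, V i)
    (hx0 : 0 < gdw (fun i => m1 (pf r mu 1 N) i) (pf r (H945.rst mu N (cl D0 w0 u v)) 1 N) P x)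
    (hx : Real.exp (-s) ≤ D0 * ms mu N (cl D0 w0 u v) * N / Vv *
      gdw (fun i => m1 (pf r mu 1 N) i) (pf r (H945.rst mu N (cl D0 w0 u v)) 1 N) P x) :
    ∑ j ∈ univ \ P, (q j : ℝ) ^ (-g) * Di (fun i => m1 (pf r mu 1 N) i)
        (gdw (fun i => m1 (pf r mu 1 N) i) (pf r (H945.rst mu N (cl D0 w0 u v)) 1 N)) j P x ≤
      cstF W be ga cw D0 + ∑ i ∈ P, αq be ga q i -
        Real.log (D0 * ms mu N (cl D0 w0 u v) * N / Vv) - Real.log (gdw (uq (V := V) q)
          (pf r (H945.rst mu N (cl D0 w0 u v)) 1 N) P x) := by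
  have hR := ref_push (r := r) B.law B.m0
  obtain ⟨ν, hν⟩ : ∃ ν, ν = pf r (H945.rst mu N (cl D0 w0 u v)) 1 N := ⟨_, rfl⟩
  rw [← hν] at hx0 hx hR ⊢
  have hmarg : 0 < marg ν P x :=
    (H779.Ab.gdw_pos_iff hR.prob hR.w_nonneg hR.ac P x).1 hx0
  have hw := H779.Ab.prod_w_pos_of_marg hR.prob hR.w_nonneg hR.ac hmarg
  obtain ⟨hprod, hA⟩ := hN.lenP hP
  have hgu := gdw_u hN B.law B.res atom hmarg.le hw
  have hNR : (0 : ℝ) < N := by exact_mod_cast B.law.pos
  have hD0R : (0 : ℝ) < D0 := by exact_mod_cast B.D1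
  have hH : 0 < D0 * ms mu N (cl D0 w0 u v) * N / Vv :=
    div_pos (mul_pos (mul_pos hD0R B.m0) hNR) hV
  have hgu' := gdw_uq (q := q) (ν := ν) P x
  have hP1 : (D0 : ℝ) * ∏ i ∈ P, (q i : ℝ) ≤ DM :=
    (mul_le_mul_of_nonneg_left hprod hD0R.le).trans hDM
  have hthick : Real.exp (-Ds) * Vv ≤ D0 * (∏ i ∈ P, (q i : ℝ)) *
      (ms mu N (cl D0 w0 u v) * marg ν P x) * N := by
    have h1 : Real.exp (-Ds) ≤ D0 * ms mu N (cl D0 w0 u v) * N / Vv * gdw (uq (V := V) q) ν P x := by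
      calc Real.exp (-Ds) ≤ Real.exp (-s) * Real.exp (-∑ i ∈ P, Aq g q i) := by
            rw [← Real.exp_add]; exact Real.exp_le_exp.2 (by linarith)
        _ ≤ (D0 * ms mu N (cl D0 w0 u v) * N / Vv *
            gdw (fun i => m1 (pf r mu 1 N) i) ν P x) * Real.exp (-∑ i ∈ P, Aq g q i) :=
            mul_le_mul_of_nonneg_right hx (Real.exp_pos _).le
        _ = D0 * ms mu N (cl D0 w0 u v) * N / Vv * (gdw (fun i => m1 (pf r mu 1 N) i) ν P x *
            Real.exp (-∑ i ∈ P, Aq g q i)) := by ring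
        _ ≤ _ := mul_le_mul_of_nonneg_left hgu hH.le
    have h2 := mul_le_mul_of_nonneg_right h1 hV.le
    refine h2.trans (le_of_eq ?_)
    rw [hgu']
    field_simp
  have hpins := pins_core B hQL hP1 x (by rw [← hν]; exact hmarg) (by rw [← hν]; exact hthick)
  rw [← hν] at hpins
  have hcost := cstF_pins hN.hW (be := be) (ga := ga) (cw := cw) hN.qW hN.inj B.D1 P
  have hg0 : 0 < gdw (uq (V := V) q) ν P x := by
    rw [hgu']
    refine mul_pos (Finset.prod_pos fun i _ => ?_) hmarg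
    exact_mod_cast (hN.hW _ (hN.qW i)).pos
  have hlog : Real.log (D0 * (∏ i ∈ P, (q i : ℝ)) *
      (ms mu N (cl D0 w0 u v) * marg ν P x) * N / Vv) =
      Real.log (D0 * ms mu N (cl D0 w0 u v) * N / Vv) +
        Real.log (gdw (uq (V := V) q) ν P x) := by
    rw [← Real.log_mul hH.ne' hg0.ne', hgu']
    congr 1
    field_simp
  rw [hlog] at hpins
  unfold αq
  linarith

/-- **`Thick` for the law of a cell of the state** -/
theorem thick_of (hN : PinNum γ A0 g be ga W q sc ns Λ a)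
    (B : CellB q r mu N W (fun p => (p : ℝ) ^ (-g)) D0 w0 u v (fun i => (q i : ℝ) ^ (-g)))
    (hcard : ∀ i, Fintype.card (V i) = q i)
    {cw : ℝ} (hQL : QLc mu N W (fun p => (p : ℝ) ^ (-g)) (cstF W be ga cw) DM Ds Vv u v)
    (atom : ∀ p ∈ W, ∀ a, cm mu 1 N p a = 0 ∨ (p : ℝ) ^ (-g) / (4 * p) ≤ cm mu 1 N p a)
    (hV : 0 < Vv) {e hh : ℝ} (hdens : -hh ≤ Real.log (D0 * ms mu N (cl D0 w0 u v) * N / Vv))
    (ha : cstF W be ga cw D0 + hh ≤ a) (e0 : 0 < e) (e1 : e ≤ 1 / 8)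
    (eB : e * ∑ j, (q j : ℝ) ^ (-g) * (1 + Lq g q j) ≤ 1)
    (hDM : D0 * Real.exp (2 * Λ) ≤ DM) (hDs : hh + 2 * Real.log (1 / e) + 4 * g * Λ ≤ Ds) :
    H482.Thick (Real.log 2) γ A0 (fun i => m1 (pf r mu 1 N) i) (uq (V := V) q)
      (pf r (H945.rst mu N (cl D0 w0 u v)) 1 N) sc ns (fun i => Real.log (q i)) Λ (Lq g q)
      (Aq g q) (αq be ga q) (fun i => (q i : ℝ) ^ (-g)) a e where
  ref := ref_push B.law B.m0
  scn := hN.scn
  card := hN.card
  L1 := hN.L1
  LA := hN.LA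
  atoms := atoms_w hN B.law B.res atom
  w20 := fun i b => inv_nonneg.2 (Nat.cast_nonneg _)
  w21 := fun i => by
    unfold uq
    rw [Finset.sum_const, Finset.card_univ, hcard, nsmul_eq_mul]
    exact mul_inv_cancel₀ (by exact_mod_cast (hN.hW _ (hN.qW i)).ne_zero)
  w2A := w2A_w hN B.law B.res atom
  A0' := hN.Aq0
  α0 := hN.αq0
  a0 := hN.a0
  gH1 := fun i => by
    have h1 := hN.gH i
    have h2 : 0 ≤ Real.log 2 := Real.log_nonneg (by norm_num)
    linarith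
  a1 := fun i => by have := hN.a1 i; linarith
  lam0 := fun i => Real.rpow_nonneg (Nat.cast_nonneg _) _
  lam1 := hN.lam1
  e0 := e0
  e1 := e1
  eB := eB
  hQ := fun P hP x hx => by
    have hNR : (0 : ℝ) < N := by exact_mod_cast B.law.pos
    have hD0R : (0 : ℝ) < D0 := by exact_mod_cast B.D1
    have hH : 0 < D0 * ms mu N (cl D0 w0 u v) * N / Vv :=
      div_pos (mul_pos (mul_pos hD0R B.m0) hNR) hV
    have he2 : 0 < e ^ 2 := by positivity
    have h1 : Real.exp (-hh) ≤ D0 * ms mu N (cl D0 w0 u v) * N / Vv := by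
      rw [← Real.le_log_iff_exp_le hH]; exact hdens
    have h2 := pins_num hN B hQL atom hV (X := 2 * Λ) (s := hh + 2 * Real.log (1 / e)) hP hDM
      (by linarith) x (lt_of_lt_of_le he2 hx) (by
        have h3 : Real.exp (-(hh + 2 * Real.log (1 / e))) = Real.exp (-hh) * e ^ 2 := by
          rw [neg_add, Real.exp_add, one_div, Real.log_inv,
            show -(2 * -Real.log e) = Real.log e + Real.log e by ring, Real.exp_add,
            Real.exp_log e0, sq]
        rw [h3]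
        exact mul_le_mul h1 hx he2.le hH.le)
    linarith
  ℓ0 := fun i => (hN.lq i).1.le
  Λ0 := hN.Λ0
  ℓΛ := hN.ℓΛ

/-- **`ThickG` for the law of a sub-cell of the state**: base cell `(D0, w0)`, sub-cell
`(D0 * d, z)`, measure `m ν`, `m = d * mass (sub-cell) / mass (cell)` -/
theorem thickG_of (hN : PinNum γ A0 g be ga W q sc ns Λ a) {d z : ℕ} (hd : 1 ≤ d)
    (B : CellB q r mu N W (fun p => (p : ℝ) ^ (-g)) (D0 * d) z u v (fun i => (q i : ℝ) ^ (-g)))
    (hcard : ∀ i, Fintype.card (V i) = q i) (hD0 : 1 ≤ D0)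
    (hm0 : 0 < ms mu N (cl D0 w0 u v)) (hz : z < D0 * d)
    {cw : ℝ} (hcw : 0 ≤ cw)
    (hQL : QLc mu N W (fun p => (p : ℝ) ^ (-g)) (cstF W be ga cw) DM Ds Vv u v)
    (atom : ∀ p ∈ W, ∀ a, cm mu 1 N p a = 0 ∨ (p : ℝ) ^ (-g) / (4 * p) ≤ cm mu 1 N p a)
    (hV : 0 < Vv) {del hh κ : ℝ} (hh0 : 0 ≤ hh)
    (hdens : -hh ≤ Real.log (D0 * ms mu N (cl D0 w0 u v) * N / Vv))
    (hκ : Real.exp (cstF W be ga cw (D0 * d) + hh) ≤ κ) (d0 : 0 < del) (d1 : del ≤ 1)
    (dB : del * ∑ j, (q j : ℝ) ^ (-g) * (1 + Lq g q j) ≤ 1)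
    (hDM : D0 * d * Real.exp (3 * Λ) ≤ DM)
    (hDs : hh + Real.log (1 / del) + 6 * g * Λ ≤ Ds) :
    H779.Ab.Ll.ThickG (Real.log 2) γ A0 (fun i => m1 (pf r mu 1 N) i) (uq (V := V) q)
      (pf r (H945.rst mu N (cl (D0 * d) z u v)) 1 N) sc ns (fun i => Real.log (q i)) Λ (Lq g q)
      (Aq g q) (αq be ga q) (fun i => (q i : ℝ) ^ (-g)) a del
      (d * ms mu N (cl (D0 * d) z u v) / ms mu N (cl D0 w0 u v)) κ := by
  have hNR : (0 : ℝ) < N := by exact_mod_cast B.law.pos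
  have hD0R : (0 : ℝ) < D0 := by exact_mod_cast hD0
  have hdR : (0 : ℝ) < d := by exact_mod_cast hd
  have hH : 0 < D0 * ms mu N (cl D0 w0 u v) * N / Vv :=
    div_pos (mul_pos (mul_pos hD0R hm0) hNR) hV
  have hHe : Real.exp (-hh) ≤ D0 * ms mu N (cl D0 w0 u v) * N / Vv := by
    rw [← Real.le_log_iff_exp_le hH]; exact hdens
  have hm : 0 < d * ms mu N (cl (D0 * d) z u v) / ms mu N (cl D0 w0 u v) :=
    div_pos (mul_pos hdR B.m0) hm0
  have hcst0 : 0 ≤ cstF W be ga cw (D0 * d) := cstF_nonneg hN.be0 hcw B.D1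
  have hκ1 : 1 ≤ κ := (Real.one_le_exp (add_nonneg hcst0 hh0)).trans hκ
  have hκ0 : 0 < κ := by linarith
  have hHd : ((D0 * d : ℕ) : ℝ) * ms mu N (cl (D0 * d) z u v) * N / Vv =
      D0 * ms mu N (cl D0 w0 u v) * N / Vv *
        (d * ms mu N (cl (D0 * d) z u v) / ms mu N (cl D0 w0 u v)) := by
    push_cast
    have := hm0.ne'
    field_simp
  have hlog2 : 0 ≤ Real.log (1 / del) := Real.log_nonneg (by
    rw [le_div_iff₀ d0]; linarith)
  have hmκ : d * ms mu N (cl (D0 * d) z u v) / ms mu N (cl D0 w0 u v) ≤ κ := by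
    by_cases hth : Real.exp (-Ds) * Vv ≤ ((D0 * d : ℕ) : ℝ) * ms mu N (cl (D0 * d) z u v) * N
    · have h1 := hQL (D0 * d) z B.D1 (by
        have h2 : (1 : ℝ) ≤ Real.exp (3 * Λ) := Real.one_le_exp (by linarith [hN.Λ0])
        refine le_trans ?_ hDM
        push_cast
        exact le_mul_of_one_le_right (mul_pos hD0R hdR).le h2) hz B.m0 hth
      have h2 : 0 ≤ ∑ p ∈ W with ¬ p ∣ D0 * d, (p : ℝ) ^ (-g) *
          klc (H945.rst mu N (cl (D0 * d) z u v)) mu N p := by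
        refine Finset.sum_nonneg fun p hp => mul_nonneg (by positivity) ?_
        refine H945.klc_nonneg (H945.rst_law B.law B.m0) B.law (fun i _ h => ?_)
          (B.Wpos p (Finset.mem_filter.1 hp).1)
        by_contra h3
        exact (H945.rst_ne h3).2 h
      rw [hHd, Real.log_mul hH.ne' hm.ne'] at h1
      have h3 : Real.log (d * ms mu N (cl (D0 * d) z u v) / ms mu N (cl D0 w0 u v)) ≤
          cstF W be ga cw (D0 * d) + hh := by linarith
      exact ((Real.log_le_iff_le_exp hm).1 h3).trans hκ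
    · push Not at hth
      have h1 : ((D0 * d : ℕ) : ℝ) * ms mu N (cl (D0 * d) z u v) * N / Vv < Real.exp (-Ds) := by
        rw [div_lt_iff₀ hV]; exact hth
      rw [hHd] at h1
      have h2 : Real.exp (-hh) * (d * ms mu N (cl (D0 * d) z u v) / ms mu N (cl D0 w0 u v)) <
          Real.exp (-Ds) := lt_of_le_of_lt (mul_le_mul_of_nonneg_right hHe hm.le) h1
      have h3 : d * ms mu N (cl (D0 * d) z u v) / ms mu N (cl D0 w0 u v) ≤ 1 := by
        by_contra hcon
        push Not at hcon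
        have h4 : Real.exp (-Ds) ≤ Real.exp (-hh) := Real.exp_le_exp.2 (by
          have := mul_nonneg hN.g0 hN.Λ0.le
          linarith)
        have h5 := mul_lt_mul_of_pos_left hcon (Real.exp_pos (-hh))
        linarith
      linarith
  exact
  { ref := ref_push B.law B.m0
    m0 := hm
    mκ := hmκ
    scn := hN.scn
    card := hN.card
    L1 := hN.L1
    LA := hN.LA
    atoms := atoms_w hN B.law B.res atom
    w20 := fun i b => inv_nonneg.2 (Nat.cast_nonneg _)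
    w21 := fun i => by
      unfold uq
      rw [Finset.sum_const, Finset.card_univ, hcard, nsmul_eq_mul]
      exact mul_inv_cancel₀ (by exact_mod_cast (hN.hW _ (hN.qW i)).ne_zero)
    w2A := w2A_w hN B.law B.res atom
    A0' := hN.Aq0
    α0 := hN.αq0
    a0 := hN.a0
    gH1 := hN.gH
    a1 := hN.a1
    lam0 := fun i => Real.rpow_nonneg (Nat.cast_nonneg _) _
    lam1 := hN.lam1
    del0 := d0.le
    del1 := d1
    delB := dB
    hQ := fun P hP x hx0 hx => by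
      have hx' : Real.exp (-(hh + Real.log (1 / del))) ≤
          ((D0 * d : ℕ) : ℝ) * ms mu N (cl (D0 * d) z u v) * N / Vv *
          gdw (fun i => m1 (pf r mu 1 N) i)
            (pf r (H945.rst mu N (cl (D0 * d) z u v)) 1 N) P x := by
        have h3 : Real.exp (-(hh + Real.log (1 / del))) = Real.exp (-hh) * del := by
          rw [neg_add, Real.exp_add, one_div, Real.log_inv, neg_neg, Real.exp_log d0]
        rw [h3, hHd, mul_assoc]
        refine mul_le_mul hHe ?_ d0.le hH.le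
        exact (le_mul_of_one_le_right d0.le hκ1).trans hx
      have h2 := pins_num hN B hQL atom hV (X := 3 * Λ) (s := hh + Real.log (1 / del)) hP
        (by push_cast; exact hDM) (by linarith) x hx0 hx'
      have hR := ref_push (r := r) B.law B.m0
      have hmarg := (H779.Ab.gdw_pos_iff hR.prob hR.w_nonneg hR.ac P x).1 hx0
      have hg0 : 0 < gdw (uq (V := V) q) (pf r (H945.rst mu N (cl (D0 * d) z u v)) 1 N) P x := by
        rw [gdw_uq]
        refine mul_pos (Finset.prod_pos fun i _ => ?_) hmarg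
        exact_mod_cast (hN.hW _ (hN.qW i)).pos
      have h4 : Real.log (((D0 * d : ℕ) : ℝ) * ms mu N (cl (D0 * d) z u v) * N / Vv) =
          Real.log (D0 * ms mu N (cl D0 w0 u v) * N / Vv) +
          Real.log (d * ms mu N (cl (D0 * d) z u v) / ms mu N (cl D0 w0 u v)) := by
        rw [hHd, Real.log_mul hH.ne' hm.ne']
      have h5 : cstF W be ga cw (D0 * d) + hh ≤ Real.log κ := by
        rw [Real.le_log_iff_exp_le hκ0]; exact hκ
      rw [h4] at h2
      rw [Real.log_div (mul_pos hm hg0).ne' hκ0.ne', Real.log_mul hm.ne' hg0.ne']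
      have := hN.a0
      linarith
    ℓ0 := fun i => (hN.lq i).1.le
    Λ0 := hN.Λ0
    ℓΛ := hN.ℓΛ }

end

end Vale.Agent.P042.H743
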