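import Vale.Agent.P042.H858.EIPush
import Vale.Agent.P042.H599.ThinP

/-!
# P042, power regime: the pins inequality for all cells of the state

`QLc`: the inequality of the state for the laws of the cells (no competitor), for all cells of
density at least `exp (-Ds)`. The thick cells come from the master inequality, the thin ones from
the level one inequality.
-/

set_option autoImplicit false
set_option linter.unusedSectionVars false

namespace Vale.Agent.P042.H743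

open Finset Vale.Agent.P042.H461 Vale.Agent.P042.H858
open Vale.Agent.P042.H599 (cm Law)
open Vale.Agent.P042.H945 (SM kl2 klc ms cl)
open Vale.Agent.P042.H779 (marg m1 phi)
open Vale.Agent.P042.H779.Ab (ce gdw Di Ref)
open Vale.Agent.P042.H482 (mi)

/-- the pins inequality at one window: all cells of density at least `exp (-Ds)` -/
def QLc (mu : ℕ → ℝ) (N : ℕ) (W : Finset ℕ) (c cst : ℕ → ℝ) (DM Ds Vv : ℝ) (u v : ℕ) : Prop :=
  ∀ D w : ℕ, 1 ≤ D → (D : ℝ) ≤ DM → w < D → 0 < ms mu N (cl D w u v) →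
    Real.exp (-Ds) * Vv ≤ D * ms mu N (cl D w u v) * N →
    Real.log (D * ms mu N (cl D w u v) * N / Vv) +
      ∑ p ∈ W with ¬ p ∣ D, c p * klc (H945.rst mu N (cl D w u v)) mu N p ≤ cst D

theorem kl2_self (x : ℕ → ℝ) (N : ℕ) : kl2 x x N = 0 := by
  unfold kl2 SM
  exact Finset.sum_eq_zero fun i _ => by ring

theorem rst_nonneg {mu : ℕ → ℝ} {N : ℕ} {S : ℕ → Prop} (nn : ∀ n, 0 ≤ mu n)
    (hm : 0 < ms mu N S) (n : ℕ) : 0 ≤ H945.rst mu N S n := by
  by_cases h : S n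
  · rw [H945.rst_val h]
    exact div_nonneg (nn n) hm.le
  · rw [H945.rst_val0 h]

/-- the thick cells -/
theorem qlc_of_mfe {mu : ℕ → ℝ} {N : ℕ} {W : Finset ℕ} {c cst : ℕ → ℝ} {DM Dm Vv : ℝ} {u v : ℕ}
    (h : MFe mu N W c cst DM Dm Vv u v) (law : Law mu 1 N) (nn : ∀ n, 0 ≤ mu n) (hDm : 0 ≤ Dm) :
    QLc mu N W c cst DM Dm Vv u v := by
  intro D w hD hDM hw hm hth
  have h0 := rst_nonneg nn hm
  have h1 := h D w (H945.rst mu N (cl D w u v)) hD hDM hw hm hth (H945.rst_law law hm) h0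
    (fun n => le_mul_of_one_le_left (h0 n) (Real.one_le_exp hDm))
  rw [kl2_self, zero_add] at h1
  exact h1

/-- numerical bound for the light atoms -/
theorem atom_num {t : ℝ} (ht : 0 ≤ t) :
    Real.exp (-t) * (12 + 7 * (Real.log 4 + t)) ≤ 24 * Real.exp (-(t / 2)) := by
  have h4 : Real.log 4 ≤ 1.4 := by
    have h : Real.log 4 = 2 * Real.log 2 := by
      rw [show (4 : ℝ) = 2 ^ 2 by norm_num, Real.log_pow]; norm_num
    rw [h]; linarith [Real.log_two_lt_d9]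
  have h1 : Real.exp (-t) = Real.exp (-(t / 2)) * Real.exp (-(t / 2)) := by
    rw [← Real.exp_add]; congr 1; ring
  have h2 : 1 + t / 2 ≤ Real.exp (t / 2) := by linarith [Real.add_one_le_exp (t / 2)]
  have h3 : Real.exp (-(t / 2)) * (12 + 7 * (Real.log 4 + t)) ≤ 24 := by
    have h5 : 12 + 7 * (Real.log 4 + t) ≤ 24 * Real.exp (t / 2) := by nlinarith
    calc Real.exp (-(t / 2)) * (12 + 7 * (Real.log 4 + t))
        ≤ Real.exp (-(t / 2)) * (24 * Real.exp (t / 2)) :=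
          mul_le_mul_of_nonneg_left h5 (Real.exp_pos _).le
      _ = 24 * (Real.exp (-(t / 2)) * Real.exp (t / 2)) := by ring
      _ = 24 := by rw [← Real.exp_add, neg_add_cancel, Real.exp_zero, mul_one]
  rw [h1, mul_assoc]
  calc Real.exp (-(t / 2)) * (Real.exp (-(t / 2)) * (12 + 7 * (Real.log 4 + t)))
      ≤ Real.exp (-(t / 2)) * 24 := mul_le_mul_of_nonneg_left h3 (Real.exp_pos _).le
    _ = _ := by ring

/-- **all cells**: the thin cells (density between `exp (-Ds)` and `exp (-Dm)`) are covered by the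
level one inequality (`l = log P`) -/
theorem qlc_thin {g C1 : ℝ} (hg : 0 < g) (hg1 : g ≤ 1) (hC1 : 1 ≤ C1) :
    ∃ l0 : ℝ, ∀ l ≥ l0, ∀ (mu : ℕ → ℝ) (N : ℕ), Law mu 1 N → (∀ n, 0 ≤ mu n) →
      ∀ W : Finset ℕ, (∀ p ∈ W, p.Prime) → (∀ p ∈ W, (p : ℝ) ≤ Real.exp (C1 * l)) →
      (∀ p ∈ W, ∀ a, cm mu 1 N p a = 0 ∨ (p : ℝ) ^ (-g) / (4 * p) ≤ cm mu 1 N p a) →
      ∀ (cst : ℕ → ℝ) (DM Dm Ds D1 : ℝ) (u v : ℕ), 1 ≤ u → 0 ≤ D1 → 0 ≤ Ds →
      (∀ n, mu n ≤ Real.exp D1 / N) → D1 + Ds + 1 ≤ g / (2560 * C1) * Real.exp l →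
      Real.exp (Real.exp l / 4) ≤ N →
      DM * (2 * Real.exp (Real.exp l / 4)) ≤ ((v + 1 - u : ℕ) : ℝ) →
      2 * Real.exp ((1 - g / 10) * l) ≤ Dm → (∀ D : ℕ, 1 ≤ D → (D : ℝ) ≤ DM → 0 ≤ cst D) →
      QLc mu N W (fun p => (p : ℝ) ^ (-g)) cst DM Dm ((v + 1 - u : ℕ) : ℝ) u v →
      QLc mu N W (fun p => (p : ℝ) ^ (-g)) cst DM Ds ((v + 1 - u : ℕ) : ℝ) u v := by
  obtain ⟨l0, hl0⟩ := H599.thin_P (g1 := g / 2) (C1 := C1) (C := 24) (by linarith) (by linarith)
    hC1 (by norm_num)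
  refine ⟨l0, fun l hl mu N law nn W hW hY atom cst DM Dm Ds D1 u v hu hD1 hDs cap hnum hN hV hDm
    hcst hQ => ?_⟩
  intro D w hD hDM hw hm hth
  by_cases hthick : Real.exp (-Dm) * ((v + 1 - u : ℕ) : ℝ) ≤ D * ms mu N (cl D w u v) * N
  · exact hQ D w hD hDM hw hm hthick
  push Not at hthick
  have hDR : (1 : ℝ) ≤ D := by exact_mod_cast hD
  have hNR : (0 : ℝ) < N := by exact_mod_cast law.pos
  have hVd : D * (2 * Real.exp (Real.exp l / 4)) ≤ ((v + 1 - u : ℕ) : ℝ) :=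
    (mul_le_mul_of_nonneg_right hDM (by positivity)).trans hV
  have hVpos : (0 : ℝ) < ((v + 1 - u : ℕ) : ℝ) := by
    refine lt_of_lt_of_le ?_ hVd
    have := Real.exp_pos (Real.exp l / 4)
    nlinarith
  have hyl : ∀ n, H945.rst mu N (cl D w u v) n ≤ mu n / ms mu N (cl D w u v) := by
    intro n
    by_cases h : cl D w u v n
    · rw [H945.rst_val h]
    · rw [H945.rst_val0 h]
      exact div_nonneg (nn n) hm.le
  have key := hl0 l hl mu (H945.rst mu N (cl D w u v)) N law (H945.rst_law law hm) D w u v hD hw hu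
    (fun n hn => (H945.rst_ne hn).1) D1 Ds (ms mu N (cl D w u v)) hD1 hDs hm hyl
    (by
      have : (D : ℝ) * N * ms mu N (cl D w u v) = D * ms mu N (cl D w u v) * N := by ring
      rw [this]; exact hth)
    (fun i _ => cap _)
    (by
      have h1 : g / 2 / (1280 * C1) = g / (2560 * C1) := by
        have : C1 ≠ 0 := by linarith
        field_simp
        norm_num
      rw [h1]; exact hnum)
    hN hVd W (fun p => (p : ℝ) ^ (-g)) (fun p => (p : ℝ) ^ (-g) / 4)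
    (fun p hp => (hW p hp).pos)
    (fun p hp q hq hpq => (Nat.coprime_primes (hW p hp) (hW q hq)).2 hpq) hY
    (fun p hp => by positivity)
    (fun p hp => by
      have : (0 : ℝ) < p := by exact_mod_cast (hW p hp).pos
      positivity)
    (fun p hp => by
      have h1 : (p : ℝ) ^ (-g) ≤ 1 := Real.rpow_le_one_of_one_le_of_nonpos
        (by exact_mod_cast (hW p hp).one_lt.le) (by linarith)
      linarith)
    (fun p hp => by
      have hp0 : (0 : ℝ) < p := by exact_mod_cast (hW p hp).pos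
      have hp1 : (1 : ℝ) ≤ p := by exact_mod_cast (hW p hp).one_lt.le
      have hlp : 0 ≤ g * Real.log p := mul_nonneg hg.le (Real.log_nonneg hp1)
      have e1 : (p : ℝ) ^ (-g) = Real.exp (-(g * Real.log p)) := by
        rw [Real.rpow_def_of_pos hp0]; congr 1; ring
      have e2 : Real.log (1 / ((p : ℝ) ^ (-g) / 4)) = Real.log 4 + g * Real.log p := by
        rw [e1, one_div_div, Real.log_div (by norm_num) (Real.exp_pos _).ne', Real.log_exp]
        ring
      rw [e2, e1, show g / 2 * Real.log p = g * Real.log p / 2 by ring]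
      exact atom_num hlp)
    (fun p hp a _ => by
      rcases atom p hp a with h | h
      · exact Or.inl h
      · refine Or.inr (le_trans (le_of_eq ?_) h)
        have hp0 : (p : ℝ) ≠ 0 := by exact_mod_cast (hW p hp).ne_zero
        field_simp)
  have hfil : W.filter (fun p => ¬ p ∣ D) = W.filter fun p => Nat.Coprime p D :=
    Finset.filter_congr fun p hp => ((hW p hp).coprime_iff_not_dvd).symm
  rw [hfil]
  have hlog : Real.log (D * ms mu N (cl D w u v) * N / ((v + 1 - u : ℕ) : ℝ)) ≤ -Dm := by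
    rw [Real.log_le_iff_le_exp (by positivity), div_le_iff₀ hVpos]
    exact hthick.le
  have h3 : (1 - g / 2 / 5) * l = (1 - g / 10) * l := by ring
  rw [h3] at key
  have h4 := hcst D hD hDM
  linarith

section
variable {ι : Type*} [Fintype ι] [DecidableEq ι] {V : ι → Type*} [∀ i, Fintype (V i)]
  [∀ i, DecidableEq (V i)]

/-- the data of a base cell, without inequality -/
structure CellB (q : ι → ℕ) (r : ∀ i, ℕ → V i) (mu : ℕ → ℝ) (N : ℕ) (W : Finset ℕ)
    (c : ℕ → ℝ) (D0 w0 u v : ℕ) (lam : ι → ℝ) : Prop where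
  law : Law mu 1 N
  nn : ∀ n, 0 ≤ mu n
  q2 : ∀ i, 2 ≤ q i
  pc : Pairwise fun i j => (q i).Coprime (q j)
  Wpos : ∀ p ∈ W, 0 < p
  c0 : ∀ p ∈ W, 0 ≤ c p
  lam0 : ∀ i, 0 ≤ lam i
  lamc : ∀ i, lam i = 0 ∨ (q i ∈ W ∧ lam i ≤ c (q i))
  res : ∀ i n m, r i n = r i m ↔ n ≡ m [MOD q i]
  cop : ∀ i, (q i).Coprime D0
  D1 : 1 ≤ D0
  m0 : 0 < ms mu N (cl D0 w0 u v)

variable {q : ι → ℕ} {r : ∀ i, ℕ → V i} {mu : ℕ → ℝ} {N D0 w0 u v : ℕ} {W : Finset ℕ}
  {c cst : ℕ → ℝ} {DM Ds Vv : ℝ} {lam : ι → ℝ}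

theorem CellB.hyp (B : CellB q r mu N W c D0 w0 u v lam) (hV : 0 < Vv) :
    CellHyp q r mu N W c cst 0 0 Vv D0 w0 u v lam where
  MF := fun D w y hD hD2 => by
    have : (1 : ℝ) ≤ D := by exact_mod_cast hD
    linarith
  law := B.law
  nn := B.nn
  q2 := B.q2
  pc := B.pc
  Wpos := B.Wpos
  c0 := B.c0
  lam0 := B.lam0
  lamc := B.lamc
  res := B.res
  cop := B.cop
  D1 := B.D1
  m0 := B.m0
  Vpos := hV

theorem _root_.Vale.Agent.P042.H858.CellHyp.toB {DM Dm : ℝ}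
    (H : CellHyp q r mu N W c cst DM Dm Vv D0 w0 u v lam) :
    CellB q r mu N W c D0 w0 u v lam :=
  ⟨H.law, H.nn, H.q2, H.pc, H.Wpos, H.c0, H.lam0, H.lamc, H.res, H.cop, H.D1, H.m0⟩

/-- the divergences of the image law are relative entropies of the cell -/
theorem Di_cell (B : CellB q r mu N W c D0 w0 u v lam) {P : Finset ι} {x : ∀ i, V i} {n0 : ℕ}
    (h0 : cl D0 w0 u v n0) (hpin : ∀ i ∈ P, r i n0 = x i)
    (hmg : marg (pf r (H945.rst mu N (cl D0 w0 u v)) 1 N) P x =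
        ms mu N (cl (D0 * ∏ i ∈ P, q i) (n0 % (D0 * ∏ i ∈ P, q i)) u v) /
          ms mu N (cl D0 w0 u v))
    (hm : 0 < ms mu N (cl (D0 * ∏ i ∈ P, q i) (n0 % (D0 * ∏ i ∈ P, q i)) u v))
    {j : ι} (hj : j ∉ P) :
    Di (fun i => m1 (pf r mu 1 N) i)
        (gdw (fun i => m1 (pf r mu 1 N) i) (pf r (H945.rst mu N (cl D0 w0 u v)) 1 N)) j P x =
      klc (H945.rst mu N (cl (D0 * ∏ i ∈ P, q i) (n0 % (D0 * ∏ i ∈ P, q i)) u v)) mu N
        (q j) := by
  have hmu := B.law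
  have hqpos : ∀ i, 0 < q i := fun i => lt_of_lt_of_le (by norm_num) (B.q2 i)
  have hR := ref_push (r := r) B.law B.m0
  have hx : 0 < marg (pf r (H945.rst mu N (cl D0 w0 u v)) 1 N) P x := by
    rw [hmg]; exact div_pos hm B.m0
  set S' := cl (D0 * ∏ i ∈ P, q i) (n0 % (D0 * ∏ i ∈ P, q i)) u v with hS'
  set nu := H945.rst mu N S' with hnu
  have hceG := ce_pin (mu := mu) (N := N) B.pc B.res B.cop B.m0 h0 hpin hm hmg
  have hnulaw : Law nu 1 N := H945.rst_law hmu hm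
  have hac : H945.AC nu mu N := fun i _ h => by
    by_contra h2
    exact (H945.rst_ne h2).2 h
  rw [H482.Di_eq hR hj hx, ← H742.klr_eq_klc hmu hac, klr_coord hqpos B.res]
  have h1 : ∀ b, mi (pf r (H945.rst mu N (cl D0 w0 u v)) 1 N) P (fun _ => 1) j x b =
      m1 (pf r nu 1 N) j b := by
    intro b
    unfold mi
    rw [hceG]
    unfold m1
    have h2 : ∀ z : ∀ i, V i, (if z j = b then pf r nu 1 N z else 0) =
        pf r nu 1 N z * (if z j = b then 1 else 0) := fun z => by split_ifs <;> simp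
    rw [Finset.sum_congr rfl fun z _ => h2 z, sum_pf]
  simp only [h1]
  have hl1 : IsLaw (m1 (pf r nu 1 N) j) := by
    have h3 : m1 (pf r nu 1 N) j = push (fun x : ∀ i, V i => x j) (pf r nu 1 N) := by
      funext b; exact m1_eq_push _ j b
    rw [h3]
    exact (isLaw_pf r hnulaw).push _
  have hl2 : IsLaw (m1 (pf r mu 1 N) j) := by
    have h3 : m1 (pf r mu 1 N) j = push (fun x : ∀ i, V i => x j) (pf r mu 1 N) := by
      funext b; exact m1_eq_push _ j b
    rw [h3]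
    exact (isLaw_pf r hmu).push _
  refine sum_phi_eq_KL hl1.2 hl2.2 fun b hb => ?_
  have h4 : AC (pf r nu 1 N) (pf r mu 1 N) := by
    unfold pf
    refine AC.push (fun k hk => ?_) (isLaw_iv hmu).1 _
    exact hac k k.2 hk
  have h5 := h4.push (isLaw_pf r hmu).1 (fun x : ∀ i, V i => x j)
  rw [m1_eq_push] at hb ⊢
  exact h5 b hb

/-- **the pins inequality on the product space** (exact form) -/
theorem pins_core (B : CellB q r mu N W c D0 w0 u v lam) (hQL : QLc mu N W c cst DM Ds Vv u v)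
    {P : Finset ι} (hP : (D0 : ℝ) * ∏ i ∈ P, (q i : ℝ) ≤ DM) (x : ∀ i, V i)
    (hx : 0 < marg (pf r (H945.rst mu N (cl D0 w0 u v)) 1 N) P x)
    (hthick : Real.exp (-Ds) * Vv ≤ D0 * (∏ i ∈ P, (q i : ℝ)) *
      (ms mu N (cl D0 w0 u v) * marg (pf r (H945.rst mu N (cl D0 w0 u v)) 1 N) P x) * N) :
    Real.log (D0 * (∏ i ∈ P, (q i : ℝ)) *
      (ms mu N (cl D0 w0 u v) * marg (pf r (H945.rst mu N (cl D0 w0 u v)) 1 N) P x) * N / Vv) +
      ∑ j ∈ univ \ P, lam j * Di (fun i => m1 (pf r mu 1 N) i)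
        (gdw (fun i => m1 (pf r mu 1 N) i) (pf r (H945.rst mu N (cl D0 w0 u v)) 1 N)) j P x ≤
      cst (D0 * ∏ i ∈ P, q i) := by
  have hmu := B.law
  have hqpos : ∀ i, 0 < q i := fun i => lt_of_lt_of_le (by norm_num) (B.q2 i)
  have hinj : Function.Injective q := fun i j hij => by
    by_contra hne
    have h1 : (q i).Coprime (q j) := B.pc hne
    rw [← hij, Nat.coprime_self] at h1
    have := B.q2 i
    omega
  obtain ⟨n0, h0, hpin, hmg⟩ := exists_point B.pc B.res B.cop P hx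
  have hm' : 0 < ms mu N (cl (D0 * ∏ i ∈ P, q i) (n0 % (D0 * ∏ i ∈ P, q i)) u v) := by
    rw [hmg] at hx
    rcases (H945.ms_nonneg hmu
      (cl (D0 * ∏ i ∈ P, q i) (n0 % (D0 * ∏ i ∈ P, q i)) u v)).eq_or_lt with h | h
    · rw [← h, zero_div] at hx
      exact absurd hx (lt_irrefl _)
    · exact h
  have hms : ms mu N (cl D0 w0 u v) *
      marg (pf r (H945.rst mu N (cl D0 w0 u v)) 1 N) P x =
      ms mu N (cl (D0 * ∏ i ∈ P, q i) (n0 % (D0 * ∏ i ∈ P, q i)) u v) := by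
    rw [hmg]
    have := B.m0.ne'
    field_simp
  have hDpos : 1 ≤ D0 * ∏ i ∈ P, q i := Nat.one_le_iff_ne_zero.2
    (Nat.mul_ne_zero (by have := B.D1; omega)
      (Finset.prod_ne_zero_iff.2 fun i _ => (hqpos i).ne'))
  have hDc : ((D0 * ∏ i ∈ P, q i : ℕ) : ℝ) = D0 * ∏ i ∈ P, (q i : ℝ) := by
    push_cast; rfl
  rw [hms, ← hDc] at hthick ⊢
  have hmain := hQL _ _ hDpos (by rw [hDc]; exact hP) (Nat.mod_lt _ hDpos) hm' hthick
  have hac : H945.AC (H945.rst mu N (cl (D0 * ∏ i ∈ P, q i) (n0 % (D0 * ∏ i ∈ P, q i)) u v))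
      mu N := fun i _ h => by
    by_contra h2
    exact (H945.rst_ne h2).2 h
  have hk0 : ∀ m, 0 < m → 0 ≤ klc (H945.rst mu N (cl (D0 * ∏ i ∈ P, q i)
      (n0 % (D0 * ∏ i ∈ P, q i)) u v)) mu N m := fun m hm =>
    H945.klc_nonneg (H945.rst_law hmu hm') hmu hac hm
  have hsum : ∑ j ∈ univ \ P, lam j * Di (fun i => m1 (pf r mu 1 N) i)
        (gdw (fun i => m1 (pf r mu 1 N) i) (pf r (H945.rst mu N (cl D0 w0 u v)) 1 N)) j P x ≤
      ∑ p ∈ W with ¬ p ∣ (D0 * ∏ i ∈ P, q i), c p * klc (H945.rst mu N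
        (cl (D0 * ∏ i ∈ P, q i) (n0 % (D0 * ∏ i ∈ P, q i)) u v)) mu N p := by
    have h1 : ∑ j ∈ univ \ P, lam j * Di (fun i => m1 (pf r mu 1 N) i)
        (gdw (fun i => m1 (pf r mu 1 N) i) (pf r (H945.rst mu N (cl D0 w0 u v)) 1 N)) j P x ≤
        ∑ p ∈ ((univ \ P).filter fun i => lam i ≠ 0).image q, c p * klc (H945.rst mu N
        (cl (D0 * ∏ i ∈ P, q i) (n0 % (D0 * ∏ i ∈ P, q i)) u v)) mu N p := by
      rw [Finset.sum_image fun i _ j _ h => hinj h, Finset.sum_filter]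
      refine Finset.sum_le_sum fun j hj => ?_
      rw [Di_cell B h0 hpin hmg hm' (Finset.mem_sdiff.1 hj).2]
      by_cases h2 : lam j = 0
      · rw [if_neg (by simp [h2]), h2, zero_mul]
      · rw [if_pos h2]
        rcases B.lamc j with h3 | h3
        · exact absurd h3 h2
        · exact mul_le_mul_of_nonneg_right h3.2 (hk0 _ (hqpos j))
    refine h1.trans (Finset.sum_le_sum_of_subset_of_nonneg ?_ ?_)
    · intro p hp
      obtain ⟨i, hi, rfl⟩ := Finset.mem_image.1 hp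
      obtain ⟨hi1, hi2⟩ := Finset.mem_filter.1 hi
      rcases B.lamc i with h3 | h3
      · exact absurd h3 hi2
      refine Finset.mem_filter.2 ⟨h3.1, ?_⟩
      have hiQ : i ∉ P := (Finset.mem_sdiff.1 hi1).2
      refine lt_two_coprime (B.q2 i) ?_
      refine Nat.Coprime.mul_right (B.cop i) (Nat.Coprime.prod_right fun j hj => ?_)
      exact B.pc fun hij => hiQ (hij ▸ hj)
    · intro p hp _
      have hpW := (Finset.mem_filter.1 hp).1
      exact mul_nonneg (B.c0 p hpW) (hk0 p (B.Wpos p hpW))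
  linarith

end

end Vale.Agent.P042.H743
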